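import Vale.Agent.P281.H511.D.Ser
import Vale.Agent.P281.H713.GNC3

/-!
# P281, project T-Delta, block D6 (helper511): the limit of the series
-/

open scoped Topology ContDiff
open Set Filter Module Metric

namespace Vale.Agent.P281.H511.D

open Vale.Agent.P281 Vale.Agent.P281.H713

set_option linter.unusedSectionVars false

section Hom

variable {V : Type} [NormedAddCommGroup V] [InnerProductSpace ℂ V] [FiniteDimensional ℂ V]
variable {q q' : ℕ} {φ φ' : ℂ × Cub V → ℂ}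

theorem IsHom.pow_fst (q : ℕ) : IsHom q (fun x : ℂ × Cub V => x.1 ^ q) where
  cd := contDiff_fst.pow q
  hom s x := by
    show (s * x.1) ^ q = s ^ q * x.1 ^ q
    rw [mul_pow]
  grow := ⟨1, zero_le_one, fun x => by
    rw [one_mul, norm_pow]
    exact pow_le_pow_left₀ (norm_nonneg _) (norm_fst_le x) q⟩

theorem IsHom.lin (Λ : (ℂ × Cub V) →L[ℂ] ℂ) : IsHom 1 (fun x : ℂ × Cub V => Λ x) where
  cd := Λ.contDiff
  hom s x := by
    rw [map_smul, pow_one, smul_eq_mul]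
  grow := ⟨‖Λ‖, by positivity, fun x => by
    rw [pow_one]
    exact Λ.le_opNorm x⟩

theorem IsHom.mul (h : IsHom q φ) (h' : IsHom q' φ') :
    IsHom (q + q') (fun x : ℂ × Cub V => φ x * φ' x) where
  cd := h.cd.mul h'.cd
  hom s x := by
    rw [h.hom, h'.hom, pow_add]
    ring
  grow := by
    obtain ⟨K, hK, h1⟩ := h.grow
    obtain ⟨K', hK', h2⟩ := h'.grow
    refine ⟨K * K', mul_nonneg hK hK', fun x => ?_⟩
    rw [norm_mul, pow_add]
    calc ‖φ x‖ * ‖φ' x‖ ≤ (K * ‖x‖ ^ q) * (K' * ‖x‖ ^ q') :=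
          mul_le_mul (h1 x) (h2 x) (norm_nonneg _) (by positivity)
      _ = _ := by ring

theorem IsHom.prod {κ : Type*} (s : Finset κ) {ψ : κ → ℂ × Cub V → ℂ}
    (h : ∀ i ∈ s, IsHom q (ψ i)) : IsHom (s.card * q) (fun x : ℂ × Cub V => ∏ i ∈ s, ψ i x) := by
  classical
  induction s using Finset.induction_on with
  | empty =>
    simp only [Finset.prod_empty, Finset.card_empty, zero_mul]
    have h1 := IsHom.pow_fst (V := V) 0
    simpa only [pow_zero] using h1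
  | insert a s ha ih =>
    have h1 := (h a (Finset.mem_insert_self a s)).mul
      (ih fun i hi => h i (Finset.mem_insert_of_mem hi))
    have h2 : (insert a s).card * q = q + s.card * q := by
      rw [Finset.card_insert_of_notMem ha]
      ring
    rw [h2]
    have h3 : (fun x : ℂ × Cub V => ∏ i ∈ insert a s, ψ i x) =
        fun x => ψ a x * ∏ i ∈ s, ψ i x := by
      funext x
      rw [Finset.prod_insert ha]
    rw [h3]
    exact h1

/-- the affine functional vanishing at `w₀` -/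
noncomputable def lam (l : Cub V →L[ℂ] ℂ) (w₀ : Cub V) : (ℂ × Cub V) →L[ℂ] ℂ :=
  l.comp (ContinuousLinearMap.snd ℂ ℂ (Cub V)) - (l w₀) • ContinuousLinearMap.fst ℂ ℂ (Cub V)

theorem lam_one (l : Cub V →L[ℂ] ℂ) (w₀ w : Cub V) : lam l w₀ (1, w) = l (w - w₀) := by
  show l w - l w₀ * 1 = _
  rw [mul_one, map_sub]

end Hom

section Lim

variable {V : Type} [NormedAddCommGroup V] [InnerProductSpace ℂ V] [FiniteDimensional ℂ V]
variable {n d r : ℕ} {Q : (Fin n → ℝ) → (Fin n → ℝ) → ℝ}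
variable {π₀ : (Fin n → ℝ) ≃L[ℝ] V} {G₀ : V ≃L[ℂ] V}

/-- the tail of the series -/
theorem CS_tail (hn : 0 < n) (h₀ : IsPol Q π₀ G₀) {φ : ℂ × Cub V → ℂ} {K : ℝ} (hK : 0 ≤ K)
    {q : ℕ} (hφ : ∀ x, ‖φ x‖ ≤ K * ‖x‖ ^ q) {k : ℕ} (hk : 3 * q + 2 * (n * n + 1) ≤ k)
    (hkm : ∀ M ∈ unitF hn h₀, (LL π₀ π₀ (mx M)).det ^ k = 1) (x : ℂ × Cub V) :
    ‖CS Q φ k π₀ π₀ x - ∑ M ∈ unitF hn h₀, φ (x.1, pull x.2 (LL π₀ π₀ (mx M)))‖ ≤
      K * (‖x.1‖ + 8 * ‖(G₀ : V →L[ℂ] V)‖ ^ 3 * ‖pull x.2 (G₀.symm : V →L[ℂ] V)‖) ^ q *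
        errT hn h₀ (k - 3 * q) := by
  have h1 : ∑ M ∈ unitF hn h₀, φ (x.1, pull x.2 (LL π₀ π₀ (mx M))) =
      ∑ M ∈ unitF hn h₀, cterm φ k π₀ π₀ x (mx M) := by
    refine Finset.sum_congr rfl fun M hM => ?_
    rw [cterm, inv_pow, hkm M hM, inv_one, mul_one]
  rw [h1]
  refine tsum_sub_le hn h₀ (F := fun M : spq Q => cterm φ k π₀ π₀ x (mx M)) (by omega)
    fun M _ => ?_
  have h2 := cterm_le hK hφ (k := k) (by omega) h₀ h₀ M x
  rw [dl_self] at h2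
  have h6 := norm_pos_iff.2 (det_equiv_ne G₀)
  rw [mul_inv_cancel₀ h6.ne', one_pow, mul_one] at h2
  exact h2

/-- linear independence from surjectivity -/
theorem li_of_surj {W : Type*} [NormedAddCommGroup W] [NormedSpace ℂ W]
    {a : Fin r → (W →L[ℂ] ℂ)} (h : Function.Surjective fun (ξ : W) (k : Fin r) => a k ξ) :
    LinearIndependent ℂ a := by
  classical
  rw [Fintype.linearIndependent_iff]
  intro c hc k
  obtain ⟨ξ, hξ⟩ := h (Pi.single k 1)
  have h1 := congrArg (fun L : W →L[ℂ] ℂ => L ξ) hc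
  simp only [sum_apply, smul_apply, smul_eq_mul, zero_apply] at h1
  have h2 : ∀ i, a i ξ = (Pi.single k 1 : Fin r → ℂ) i := fun i => congrFun hξ i
  simp only [h2] at h1
  rw [Finset.sum_eq_single k (fun b _ hb => by rw [Pi.single_eq_of_ne hb, mul_zero])
    (fun hk => absurd (Finset.mem_univ k) hk), Pi.single_eq_same, mul_one] at h1
  exact h1

/-- the jets of the limit are independent -/
theorem jets_indep {W : Type*} [NormedAddCommGroup W] [NormedSpace ℂ W] {a : Fin r → (W →L[ℂ] ℂ)}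
    (ha : LinearIndependent ℂ a) {c₀ c₁ : ℂ} (h0 : c₀ ≠ 0) (h1 : c₁ ≠ 0) :
    LinearIndependent ℂ (Fin.cons (c₀, 0) (fun j => (0, c₁ • a j)) :
      Fin (r + 1) → ℂ × (W →L[ℂ] ℂ)) := by
  rw [Fintype.linearIndependent_iff] at ha ⊢
  intro g hg
  rw [Fin.sum_univ_succ] at hg
  simp only [Fin.cons_zero, Fin.cons_succ] at hg
  have h2 := congrArg Prod.fst hg
  have h3 := congrArg Prod.snd hg
  simp only [Prod.fst_add, Prod.smul_fst, Prod.fst_sum, mul_zero, Finset.sum_const_zero,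
    add_zero, Prod.fst_zero, smul_eq_mul] at h2
  simp only [Prod.snd_add, Prod.smul_snd, Prod.snd_sum, Prod.snd_zero] at h3
  have h6 : (g 0 • (0 : W →L[ℂ] ℂ)) = 0 := ContinuousLinearMap.ext fun ξ => mul_zero _
  have h7 : (g 0 • (0 : W →L[ℂ] ℂ)) + ∑ x : Fin r, g x.succ • (c₁ • a x) = 0 := h3
  rw [h6, zero_add] at h7
  have h5 : ∑ j : Fin r, (g j.succ * c₁) • a j = ∑ j : Fin r, g j.succ • (c₁ • a j) :=
    Finset.sum_congr rfl fun j _ => mul_smul _ _ _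
  have h4 := ha (fun j => g j.succ * c₁) (h5.trans h7)
  intro i
  refine Fin.cases ?_ (fun j => ?_) i
  · exact (mul_eq_zero.1 h2).resolve_right h0
  · exact (mul_eq_zero.1 (h4 j)).resolve_right h1

/-- **the limit** -/
theorem limit (hn : 0 < n) (h₀ : IsPol Q π₀ G₀) {g : (Fin d → ℂ) → Cub V} {v₀ : Fin d → ℂ}
    (hg : ContDiffAt ℂ ω g v₀) {l : Fin r → (Cub V →L[ℂ] ℂ)}
    (hl : Function.Surjective fun (ξ : Fin d → ℂ) (k : Fin r) =>
      fderiv ℂ (fun v => l k (g v)) v₀ ξ) {P : (Fin d → ℂ) → Prop} (hP : ∀ᶠ v in 𝓝 v₀, P v) :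
    ∃ v₁ : Fin d → ℂ, (∀ᶠ v in 𝓝 v₁, P v) ∧ ∃ (q m : ℕ) (Φ : Fin (r + 1) → ℂ × Cub V → ℂ),
      0 < q ∧ 0 < m ∧ (∀ j, IsHom q (Φ j)) ∧ ∀ᶠ k' : ℕ in atTop,
        CS Q (Φ 0) (m * k') π₀ π₀ (1, g v₁) ≠ 0 ∧ ∀ c : Fin r → ℂ,
        (∀ ξ, ∑ j, c j * fderiv ℂ (fun v => CS Q (Φ j.succ) (m * k') π₀ π₀ (1, g v) /
          CS Q (Φ 0) (m * k') π₀ π₀ (1, g v)) v₁ ξ = 0) → c = 0 := by
  classical
  have hn' : (ω : WithTop ℕ∞) ≠ 0 := by simp
  obtain ⟨m, hm, hm1⟩ := exists_exponent hn h₀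
  -- generic point
  have hlg : ∀ {v : Fin d → ℂ}, ContDiffAt ℂ ω g v → ∀ k,
      fderiv ℂ (fun v => l k (g v)) v = (l k).comp (fderiv ℂ g v) := by
    intro v hv k
    exact ((l k).hasFDerivAt.comp v (hv.differentiableAt hn').hasFDerivAt).fderiv
  have hli : LinearIndependent ℂ fun k => (l k).comp (fderiv ℂ g v₀) := by
    have h1 := li_of_surj (a := fun k => (l k).comp (fderiv ℂ g v₀)) (by
      simp only [← hlg hg]
      exact hl)
    exact h1
  have hfc : ContinuousAt (fun v => fun k => (l k).comp (fderiv ℂ g v)) v₀ := by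
    refine continuousAt_pi.2 fun k => ?_
    exact (ContinuousLinearMap.compL ℂ (Fin d → ℂ) (Cub V) ℂ (l k)).continuous.continuousAt.comp
      (hg.fderiv_right (m := ω) (by simp)).continuousAt
  have hev : ∀ᶠ v in 𝓝 v₀, P v ∧ ContDiffAt ℂ ω g v ∧
      LinearIndependent ℂ fun k => (l k).comp (fderiv ℂ g v) :=
    hP.and ((hg.eventually (by simp)).and (hfc.eventually hli.eventually))
  obtain ⟨O, hO, hOo, hOv⟩ := _root_.eventually_nhds_iff.1 hev
  obtain ⟨v₁, hv₁, hgen⟩ := exists_generic (unitF hn h₀) (ι' := Cub V →L[ℂ] ℂ)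
    (F := fun M l' v => l' (pull (g v) (LL π₀ π₀ (mx M)) - g v)) hOo ⟨v₀, hOv⟩ (fun M l' => by
      have h1 : ContinuousOn g O := fun v hv => (hO v hv).2.1.continuousAt.continuousWithinAt
      exact l'.continuous.comp_continuousOn
        (((pullL (LL π₀ π₀ (mx M))).continuous.comp_continuousOn h1).sub h1))
  have hO1 : ∀ᶠ v in 𝓝 v₁, v ∈ O := hOo.mem_nhds hv₁
  obtain ⟨-, hg1, hli1⟩ := hO v₁ hv₁
  set 𝒰₁ : Finset (spq Q) := (unitF hn h₀).filter
    (fun M => ∀ᶠ v in 𝓝 v₁, pull (g v) (LL π₀ π₀ (mx M)) = g v) with h𝒰₁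
  set 𝒰₂ : Finset (spq Q) := (unitF hn h₀).filter
    (fun M => ¬ ∀ᶠ v in 𝓝 v₁, pull (g v) (LL π₀ π₀ (mx M)) = g v) with h𝒰₂
  have hsep : ∀ M : spq Q, ∃ l' : Cub V →L[ℂ] ℂ, M ∈ 𝒰₂ →
      l' (g v₁ - pull (g v₁) (LL π₀ π₀ (mx M))) ≠ 0 := by
    intro M
    by_cases hM : M ∈ 𝒰₂
    · obtain ⟨h1, h2⟩ := Finset.mem_filter.1 hM
      rcases hgen M h1 with h3 | ⟨l', h3⟩
      · exfalso
        apply h2
        filter_upwards [h3] with v hv
        by_contra h4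
        obtain ⟨l'', h5⟩ := SeparatingDual.exists_ne_zero (R := ℂ) (sub_ne_zero.2 h4)
        exact h5 (hv l'')
      · refine ⟨l', fun _ h4 => h3 ?_⟩
        have h5 : pull (g v₁) (LL π₀ π₀ (mx M)) - g v₁ =
            -(g v₁ - pull (g v₁) (LL π₀ π₀ (mx M))) := by abel
        show l' (pull (g v₁) (LL π₀ π₀ (mx M)) - g v₁) = 0
        rw [h5, map_neg, h4, neg_zero]
    · exact ⟨0, fun h => absurd h hM⟩
  choose μ hμ using hsep
  set N₁ : ℂ := (𝒰₁.card : ℂ) with hN₁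
  have hN₁0 : N₁ ≠ 0 := by
    have h1 : (1 : spq Q) ∈ 𝒰₁ := by
      refine Finset.mem_filter.2 ⟨one_mem_unitF hn h₀, Eventually.of_forall fun v => ?_⟩
      rw [mx_one, LL_one]
      exact pull_id _
    have : 0 < 𝒰₁.card := Finset.card_pos.2 ⟨1, h1⟩
    rw [hN₁]
    exact_mod_cast this.ne'
  set N₀ : ℂ := ((unitF hn h₀).card : ℂ) with hN₀
  have hN₀0 : N₀ ≠ 0 := by
    have : 0 < (unitF hn h₀).card := Finset.card_pos.2 ⟨1, one_mem_unitF hn h₀⟩
    rw [hN₀]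
    exact_mod_cast this.ne'
  -- the functions
  set B : ℂ × Cub V → ℂ := fun x =>
    ∏ M ∈ 𝒰₂, lam (μ M) (pull (g v₁) (LL π₀ π₀ (mx M))) x with hB
  have hBh : IsHom (𝒰₂.card * 1) B := IsHom.prod 𝒰₂ fun M _ => IsHom.lin _
  set q : ℕ := (𝒰₂.card * 1 + 𝒰₂.card * 1) + 1 with hq
  set Φ : Fin (r + 1) → ℂ × Cub V → ℂ := Fin.cons (fun x => x.1 ^ q)
    (fun j x => (B x * B x) * lam (l j) (g v₁) x) with hΦ
  have hΦh : ∀ j, IsHom q (Φ j) := by
    intro j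
    refine Fin.cases ?_ (fun j => ?_) j
    · exact IsHom.pow_fst q
    · exact (hBh.mul hBh).mul (IsHom.lin _)
  have hB0 : B (1, g v₁) ≠ 0 := by
    refine Finset.prod_ne_zero_iff.2 fun M hM => ?_
    rw [lam_one]
    exact hμ M hM
  set b : (Fin d → ℂ) → ℂ := fun v => B (1, g v) with hb
  -- the finite sums
  set s : Fin (r + 1) → (Fin d → ℂ) → ℂ := fun j v =>
    ∑ M ∈ unitF hn h₀, Φ j (1, pull (g v) (LL π₀ π₀ (mx M))) with hs
  have hgd : DifferentiableAt ℂ g v₁ := hg1.differentiableAt hn'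
  have hs0 : s 0 = fun _ => N₀ := by
    funext v
    show ∑ M ∈ unitF hn h₀, (1 : ℂ) ^ q = N₀
    rw [one_pow, Finset.sum_const, nsmul_eq_mul, mul_one]
  have hsj : ∀ j : Fin r, HasFDerivAt (s j.succ)
      ((N₁ * b v₁ ^ 2) • (l j).comp (fderiv ℂ g v₁)) v₁ ∧ s j.succ v₁ = 0 := by
    intro j
    -- the fixed part
    set p : (Fin d → ℂ) → ℂ := fun v => (B (1, g v) * B (1, g v)) * lam (l j) (g v₁) (1, g v)
      with hp
    have hBd : DifferentiableAt ℂ (fun v => B (1, g v)) v₁ :=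
      ((hBh.cd.differentiable hn') _).comp v₁ ((differentiableAt_const _).prodMk hgd)
    have hpd : HasFDerivAt p ((b v₁ ^ 2) • (l j).comp (fderiv ℂ g v₁)) v₁ := by
      have h1 : HasFDerivAt (fun v => lam (l j) (g v₁) (1, g v))
          ((l j).comp (fderiv ℂ g v₁)) v₁ := by
        have h2 : (fun v => lam (l j) (g v₁) (1, g v)) = fun v => l j (g v - g v₁) := by
          funext v
          rw [lam_one]
        rw [h2]
        exact (l j).hasFDerivAt.comp v₁ (hgd.hasFDerivAt.sub_const _)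
      have h3 := (hBd.hasFDerivAt.mul hBd.hasFDerivAt).mul h1
      have h4 : lam (l j) (g v₁) (1, g v₁) = 0 := by rw [lam_one, sub_self, map_zero]
      refine h3.congr_fderiv (ContinuousLinearMap.ext fun ξ => ?_)
      show (B (1, g v₁) * B (1, g v₁)) * _ + lam (l j) (g v₁) (1, g v₁) * _ =
        B (1, g v₁) ^ 2 * _
      rw [h4, zero_mul, add_zero]
      ring
    have hp0 : p v₁ = 0 := by
      show (B (1, g v₁) * B (1, g v₁)) * lam (l j) (g v₁) (1, g v₁) = 0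
      rw [lam_one, sub_self, map_zero, mul_zero]
    have h1 : HasFDerivAt (fun v => ∑ M ∈ 𝒰₁, Φ j.succ (1, pull (g v) (LL π₀ π₀ (mx M))))
        ((N₁ * b v₁ ^ 2) • (l j).comp (fderiv ℂ g v₁)) v₁ ∧
        ∑ M ∈ 𝒰₁, Φ j.succ (1, pull (g v₁) (LL π₀ π₀ (mx M))) = 0 := by
      have h2 : ∀ᶠ v in 𝓝 v₁, ∀ M ∈ 𝒰₁, pull (g v) (LL π₀ π₀ (mx M)) = g v :=
        (Finset.eventually_all 𝒰₁).2 fun M hM => (Finset.mem_filter.1 hM).2
      have h3 : ∀ᶠ v in 𝓝 v₁,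
          ∑ M ∈ 𝒰₁, Φ j.succ (1, pull (g v) (LL π₀ π₀ (mx M))) = N₁ * p v := by
        filter_upwards [h2] with v hv
        have h4 : ∀ M ∈ 𝒰₁, Φ j.succ (1, pull (g v) (LL π₀ π₀ (mx M))) = p v := by
          intro M hM
          rw [hv M hM]
          rfl
        rw [Finset.sum_congr rfl h4, Finset.sum_const, nsmul_eq_mul]
      constructor
      · have h5 := (hpd.const_mul N₁).congr_of_eventuallyEq h3
        rw [smul_smul] at h5
        exact h5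
      · rw [h3.self_of_nhds, hp0, mul_zero]
    have h2 : HasFDerivAt (fun v => ∑ M ∈ 𝒰₂, Φ j.succ (1, pull (g v) (LL π₀ π₀ (mx M))))
        (0 : (Fin d → ℂ) →L[ℂ] ℂ) v₁ ∧
        ∑ M ∈ 𝒰₂, Φ j.succ (1, pull (g v₁) (LL π₀ π₀ (mx M))) = 0 := by
      have h6 : ∀ M ∈ 𝒰₂, B (1, pull (g v₁) (LL π₀ π₀ (mx M))) = 0 := by
        intro M hM
        refine Finset.prod_eq_zero hM ?_
        rw [lam_one, sub_self, map_zero]
      constructor
      · have h3 : HasFDerivAt (fun v => ∑ M ∈ 𝒰₂, Φ j.succ (1, pull (g v) (LL π₀ π₀ (mx M))))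
            (∑ M ∈ 𝒰₂, (0 : (Fin d → ℂ) →L[ℂ] ℂ)) v₁ := by
          refine HasFDerivAt.fun_sum fun M hM => ?_
          have hpl : DifferentiableAt ℂ (fun v => ((1 : ℂ), pull (g v) (LL π₀ π₀ (mx M)))) v₁ :=
            (differentiableAt_const _).prodMk
              ((pullL (LL π₀ π₀ (mx M))).differentiableAt.comp v₁ hgd)
          have h7 := jet_sq (A := fun v => lam (l j) (g v₁) (1, pull (g v) (LL π₀ π₀ (mx M))))
            (B := fun v => B (1, pull (g v) (LL π₀ π₀ (mx M)))) (v := v₁)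
            ((lam (l j) (g v₁)).differentiableAt.comp v₁ hpl)
            (((hBh.cd.differentiable hn') _).comp v₁ hpl) (h6 M hM)
          have h8 : (fun v => Φ j.succ (1, pull (g v) (LL π₀ π₀ (mx M)))) =
              fun v => lam (l j) (g v₁) (1, pull (g v) (LL π₀ π₀ (mx M))) *
                B (1, pull (g v) (LL π₀ π₀ (mx M))) ^ 2 := by
            funext v
            show (B _ * B _) * lam (l j) (g v₁) _ = _
            ring
          rw [h8]
          exact h7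
        rwa [Finset.sum_const_zero] at h3
      · refine Finset.sum_eq_zero fun M hM => ?_
        show (B _ * B _) * lam (l j) (g v₁) _ = 0
        rw [h6 M hM, zero_mul, zero_mul]
    have h3 : s j.succ = fun v => (∑ M ∈ 𝒰₁, Φ j.succ (1, pull (g v) (LL π₀ π₀ (mx M)))) +
        ∑ M ∈ 𝒰₂, Φ j.succ (1, pull (g v) (LL π₀ π₀ (mx M))) := by
      funext v
      exact (Finset.sum_filter_add_sum_filter_not (unitF hn h₀) _ _).symm
    rw [h3]
    refine ⟨?_, ?_⟩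
    · have h4 := h1.1.add h2.1
      rw [add_zero] at h4
      exact h4
    · show (∑ M ∈ 𝒰₁, Φ j.succ (1, pull (g v₁) (LL π₀ π₀ (mx M)))) +
        ∑ M ∈ 𝒰₂, Φ j.succ (1, pull (g v₁) (LL π₀ π₀ (mx M))) = 0
      rw [h1.2, h2.2, add_zero]
  have hsd : ∀ j, ∀ {v : Fin d → ℂ}, ContDiffAt ℂ ω g v → DifferentiableAt ℂ (s j) v := by
    intro j v hv
    refine DifferentiableAt.fun_sum fun M _ => ?_
    exact (((hΦh j).cd.differentiable hn') _).comp v ((differentiableAt_const _).prodMk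
      ((pullL (LL π₀ π₀ (mx M))).differentiableAt.comp v (hv.differentiableAt hn')))
  -- the limit jets
  set X₀ : Fin (r + 1) → ℂ × ((Fin d → ℂ) →L[ℂ] ℂ) := fun j => (s j v₁, fderiv ℂ (s j) v₁)
    with hX₀
  have hX₀e : X₀ = Fin.cons (N₀, 0)
      (fun j => (0, (N₁ * b v₁ ^ 2) • (l j).comp (fderiv ℂ g v₁))) := by
    funext j
    refine Fin.cases ?_ (fun j => ?_) j
    · rw [hX₀]
      show (s 0 v₁, fderiv ℂ (s 0) v₁) = _
      rw [hs0, Fin.cons_zero, fderiv_const_apply]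
    · rw [hX₀]
      show (s j.succ v₁, fderiv ℂ (s j.succ) v₁) = _
      rw [(hsj j).2, (hsj j).1.fderiv, Fin.cons_succ]
  have hX₀i : LinearIndependent ℂ X₀ := by
    rw [hX₀e]
    exact jets_indep hli1 hN₀0 (mul_ne_zero hN₁0 (pow_ne_zero _ hB0))
  obtain ⟨ε₁, hε₁, hind⟩ := Metric.eventually_nhds_iff.1 hX₀i.eventually
  set ε : ℝ := min ε₁ ‖N₀‖ with hε
  have hε0 : 0 < ε := lt_min hε₁ (norm_pos_iff.2 hN₀0)
  -- the neighbourhood
  set Cg : ℝ := ‖g v₁‖ + 1 with hCg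
  obtain ⟨ρ, hρ, hball⟩ := Metric.eventually_nhds_iff_ball.1 (hO1.and
    (hg1.continuousAt.norm.eventually_lt_const (show ‖g v₁‖ < Cg by rw [hCg]; linarith)))
  choose K hK0 hK using fun j => (hΦh j).grow
  set K₃ : ℝ := ∑ j, K j with hK₃
  have hKK₃ : ∀ j, K j ≤ K₃ := fun j =>
    Finset.single_le_sum (f := K) (fun i _ => hK0 i) (Finset.mem_univ j)
  have hK₃0 : 0 ≤ K₃ := Finset.sum_nonneg fun i _ => hK0 i
  set Z : ℝ := (1 + 8 * ‖(G₀ : V →L[ℂ] V)‖ ^ 3 * (Cg * ‖(G₀.symm : V →L[ℂ] V)‖ ^ 3)) ^ q with hZ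
  have hCg0 : 0 ≤ Cg := by positivity
  have hZ0 : 0 ≤ Z := by positivity
  have hlim : ∀ᶠ k' : ℕ in atTop, K₃ * Z * errT hn h₀ (m * k' - 3 * q) * (1 + ρ⁻¹) < ε := by
    have h1 : Tendsto (fun k' => m * k' - 3 * q) atTop atTop :=
      (tendsto_sub_atTop_nat (3 * q)).comp (tendsto_id.const_mul_atTop' hm)
    have h2 := (((errT_tendsto hn h₀).comp h1).const_mul (K₃ * Z)).mul_const (1 + ρ⁻¹)
    rw [mul_zero, zero_mul] at h2
    exact h2.eventually (gt_mem_nhds hε0)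
  have hlarge : ∀ᶠ k' : ℕ in atTop, 3 * q + 2 * (n * n + 1) ≤ m * k' :=
    (tendsto_id.const_mul_atTop' hm).eventually_ge_atTop _
  refine ⟨v₁, hO1.mono fun v hv => (hO v hv).1, q, m, Φ, by omega, hm, hΦh, ?_⟩
  filter_upwards [hlim, hlarge] with k' hk1 hk2
  set k : ℕ := m * k' with hk
  set η : ℝ := K₃ * Z * errT hn h₀ (k - 3 * q) with hη
  have herr : 0 ≤ errT hn h₀ (k - 3 * q) := tsum_nonneg fun M => by split_ifs <;> positivity
  have hη0 : 0 ≤ η := by positivity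
  have hkm : ∀ M ∈ unitF hn h₀, (LL π₀ π₀ (mx M)).det ^ k = 1 := by
    intro M hM
    rw [hk, pow_mul, hm1 M hM, one_pow]
  set u : Fin (r + 1) → (Fin d → ℂ) → ℂ := fun j v => CS Q (Φ j) k π₀ π₀ (1, g v) with hu
  have hvρ : v₁ ∈ ball v₁ ρ := mem_ball_self hρ
  have hgO : ∀ v ∈ ball v₁ ρ, ContDiffAt ℂ ω g v := fun v hv => (hO v (hball v hv).1).2.1
  have hud : ∀ j, ∀ v ∈ ball v₁ ρ, DifferentiableAt ℂ (u j) v := by
    intro j v hv
    have h1 := CS_analytic (E := Fin d → ℂ) (Q := Q) hn (hΦh j) (k := k) (by omega) h₀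
      (U := ball v₁ ρ) isOpen_ball (π := fun _ => π₀)
      (fun x => differentiableOn_const _) (fun z _ => ⟨G₀, h₀⟩) (w := fun v => (1, g v))
      (fun z hz => ((differentiableAt_const _).prodMk
        ((hgO z hz).differentiableAt hn')).differentiableWithinAt) hv
    exact h1.differentiableAt
  have hdiff : ∀ j, ∀ v ∈ ball v₁ ρ, ‖u j v - s j v‖ ≤ η := by
    intro j v hv
    have h1 := CS_tail hn h₀ (hK0 j) (hK j) hk2 hkm ((1, g v) : ℂ × Cub V)
    refine h1.trans ?_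
    have h2 : ‖((1, g v) : ℂ × Cub V).1‖ = 1 := norm_one
    rw [h2, hη]
    have h3 : ‖pull (g v) (G₀.symm : V →L[ℂ] V)‖ ≤ Cg * ‖(G₀.symm : V →L[ℂ] V)‖ ^ 3 := by
      refine (norm_pull_le _ _).trans ?_
      have := (hball v hv).2.le
      gcongr
    have h4 : (1 + 8 * ‖(G₀ : V →L[ℂ] V)‖ ^ 3 * ‖pull (g v) (G₀.symm : V →L[ℂ] V)‖) ^ q ≤ Z := by
      rw [hZ]
      gcongr
    show K j * (1 + 8 * ‖(G₀ : V →L[ℂ] V)‖ ^ 3 * ‖pull (g v) (G₀.symm : V →L[ℂ] V)‖) ^ q *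
      errT hn h₀ (k - 3 * q) ≤ _
    have h5 := hKK₃ j
    gcongr
  have hfd : ∀ j, ‖fderiv ℂ (u j) v₁ - fderiv ℂ (s j) v₁‖ ≤ η / ρ := by
    intro j
    have h1 := MF.norm_fderiv_le_of_ball (f := fun v => u j v - s j v) hρ (fun v hv =>
      ((hud j v hv).sub (hsd j (hgO v hv))).differentiableWithinAt) (hdiff j)
    have h2 : fderiv ℂ (fun v => u j v - s j v) v₁ = fderiv ℂ (u j) v₁ - fderiv ℂ (s j) v₁ :=
      ((hud j v₁ hvρ).hasFDerivAt.sub (hsd j hg1).hasFDerivAt).fderiv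
    rw [h2] at h1
    exact h1
  have hηρ : η < ε ∧ η / ρ < ε := by
    have h1 : 0 ≤ η * ρ⁻¹ := by positivity
    rw [mul_add, mul_one] at hk1
    rw [div_eq_mul_inv]
    constructor <;> linarith
  have hXi : LinearIndependent ℂ fun j =>
      ((u j v₁, fderiv ℂ (u j) v₁) : ℂ × ((Fin d → ℂ) →L[ℂ] ℂ)) := by
    refine hind ?_
    rw [dist_pi_lt_iff hε₁]
    intro j
    rw [dist_eq_norm]
    refine max_lt ?_ ?_
    · exact ((hdiff j v₁ hvρ).trans_lt hηρ.1).trans_le (min_le_left _ _)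
    · exact ((hfd j).trans_lt hηρ.2).trans_le (min_le_left _ _)
  have hu00 : u 0 v₁ ≠ 0 := by
    intro h0
    have h1 := hdiff 0 v₁ hvρ
    rw [h0, hs0, zero_sub, norm_neg] at h1
    have h4 := min_le_right ε₁ ‖N₀‖
    rw [← hε] at h4
    linarith [hηρ.1]
  exact ⟨hu00, fun c hc => ratio_indep (fun j => hud j v₁ hvρ) hu00 hXi c hc⟩

end Lim

end Vale.Agent.P281.H511.D
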