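import Vale.Agent.P281.H511.D.Form
import Vale.Agent.P281.H511.D.Lim
import Vale.Agent.P281.H349.U.Has

/-!
# P281, project T-Delta, block D6 (helper511): the forms of a family of tori with a divisor
-/

open scoped Manifold ContDiff Topology
open Set Filter Metric Module

namespace Vale.Agent.P281.H511.D

open Vale.Agent.P281 Vale.Agent.P281.MF Vale.Agent.P281.ISO Vale.Agent.P281.ELL
open Vale.Agent.P281.H713 Vale.Agent.P281.H64.TU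

set_option linter.unusedSectionVars false

section Forms

variable {E E' : Type} [NormedAddCommGroup E] [NormedSpace ℂ E] [FiniteDimensional ℂ E]
  [NormedAddCommGroup E'] [NormedSpace ℂ E'] [FiniteDimensional ℂ E']
variable {X Y : Type} [TopologicalSpace X] [ChartedSpace E X] [IsManifold 𝓘(ℂ, E) ω X]
  [TopologicalSpace Y] [ChartedSpace E' Y] [IsManifold 𝓘(ℂ, E') ω Y]
variable {V : Type} [NormedAddCommGroup V] [InnerProductSpace ℂ V] [FiniteDimensional ℂ V]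
variable {n d r : ℕ} {Q : (Fin n → ℝ) → (Fin n → ℝ) → ℝ}
variable {f : X → Y} {S : Set Y} {ι : Type} {U : ι → Set Y}
  {π : ι → Y → ((Fin n → ℝ) ≃L[ℝ] V)} {𝒯 : Tame (Fin d → ℂ) X}
  {𝒜 : Finset (Set X)} {L : ι → X → (X → V) → (X → Cub V) → Prop}

/-- the constant `1` is a local equation off the divisor -/
theorem localEq_one {D : Set X} (hD : IsClosed D) {x : X} (hx : x ∉ D) :
    IsLocalEq E D (fun _ => 1) x := by
  refine ⟨Dᶜ, hD.isOpen_compl, hx, fun z _ => HolV.const (1 : ℂ) z, fun z hz => ?_, ?_⟩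
  · exact ⟨fun h => absurd h hz, fun h => absurd h one_ne_zero⟩
  · rintro z ⟨h1, h2⟩
    exact absurd h1 h2

/-- off the divisor, `w` is holomorphic -/
theorem hol_w (hC : TorFam E E' d 𝒯 f S Q U π 𝒜 L) (h𝒜 : ∀ D ∈ 𝒜, IsClosed D) {a : ι} {x : X}
    {β : X → V} {w : X → Cub V} (hβ : L a x β w) (hx : ∀ D ∈ 𝒜, x ∉ D) : HolV E w x := by
  obtain ⟨H, hH, hHe⟩ := hC.pole a x β w hβ (fun _ _ => 1)
    fun D hD => localEq_one (h𝒜 D hD) (hx D hD)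
  refine hH.congr ?_
  have h1 : ∀ᶠ z in 𝓝 x, ∀ D ∈ 𝒜, z ∉ D :=
    (Finset.eventually_all 𝒜).2 fun D hD => (h𝒜 D hD).isOpen_compl.mem_nhds (hx D hD)
  filter_upwards [hHe, h1] with z h2 h3
  have h4 := h2 h3
  rw [Finset.prod_const_one, one_pow, one_smul] at h4
  exact h4

/-- **D6** -/
theorem hasForms_tor (hC : TorFam E E' d 𝒯 f S Q U π 𝒜 L) (hd : 0 < d)
    (hf : ∀ x, HolM E E' f x) (e₀ : E ≃L[ℂ] (E' × (Fin d → ℂ))) {Δ : Set X → ℝ}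
    (hΔ : ∀ D, 0 ≤ Δ D) (h𝒜 : ∀ D ∈ 𝒜, IsPrimeDivisor E D) (h𝒜Δ : ∀ D ∈ 𝒜, 0 < Δ D)
    {y : Y} {a₀ : ι} (ha₀ : y ∈ U a₀) {q : (Fin d → ℂ) → X} {v₀ : Fin d → ℂ}
    (hq : ContMDiffAt 𝓘(ℂ, Fin d → ℂ) 𝓘(ℂ, E) ω q v₀) (hfq : ∀ᶠ v in 𝓝 v₀, f (q v) = y)
    (hq𝒜 : ∀ D ∈ 𝒜, q v₀ ∉ D) (hrk : ∀ β w, L a₀ (q v₀) β w → ∃ l : Fin r → (Cub V →L[ℂ] ℂ),
      Function.Surjective fun (ξ : Fin d → ℂ) (k : Fin r) =>
        fderiv ℂ (fun v => l k (w (q v))) v₀ ξ) : HasFormsT 𝒯 f S e₀ Δ r y := by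
  classical
  have hn' : (ω : WithTop ℕ∞) ≠ 0 := by simp
  have h𝒜c : ∀ D ∈ 𝒜, IsClosed D := fun D hD => (h𝒜 D hD).1
  obtain ⟨G₀, h₀⟩ : ∃ G₀, IsPol Q (π a₀ y) G₀ := hC.polarized a₀ y ha₀
  set π₀ := π a₀ y with hπ₀
  have hn : 0 < n := by
    obtain ⟨e, -⟩ := hC.bound
    have h1 : finrank ℂ V = d := by
      rw [e.toLinearEquiv.finrank_eq, finrank_pi, Fintype.card_fin]
    exact pos_of_period π₀ (by rw [h1]; exact hd)
  have hfx₀ : f (q v₀) = y := hfq.self_of_nhds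
  obtain ⟨β, w, hβ⟩ := hC.lift a₀ (q v₀) (by rw [hfx₀]; exact ha₀)
  obtain ⟨l, hl⟩ := hrk β w hβ
  set g : (Fin d → ℂ) → Cub V := fun v => w (q v) with hg
  have hgc : ContDiffAt ℂ ω g v₀ := (slice_fderiv hq (hol_w hC h𝒜c hβ hq𝒜)).1
  have hqt : Tendsto q (𝓝 v₀) (𝓝 (q v₀)) := hq.continuousAt
  have hq' : ∀ᶠ v in 𝓝 v₀, ContMDiffAt 𝓘(ℂ, Fin d → ℂ) 𝓘(ℂ, E) ω q v :=
    (contMDiffAt_iff_contMDiffAt_nhds (by simp)).1 hq
  have hoff : ∀ᶠ z in 𝓝 (q v₀), ∀ D ∈ 𝒜, z ∉ D :=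
    (Finset.eventually_all 𝒜).2 fun D hD => (h𝒜c D hD).isOpen_compl.mem_nhds (hq𝒜 D hD)
  have hgood : ∀ᶠ v in 𝓝 v₀, ContMDiffAt 𝓘(ℂ, Fin d → ℂ) 𝓘(ℂ, E) ω q v ∧ f (q v) = y ∧
      L a₀ (q v) β w ∧ ∀ D ∈ 𝒜, q v ∉ D := by
    filter_upwards [hq', hfq, hqt.eventually (hC.near a₀ (q v₀) β w hβ), hqt.eventually hoff]
      with v h1 h2 h3 h4 using ⟨h1, h2, h3, h4⟩
  obtain ⟨v₁, hg₁, qq, m, Φ, hqq, hm, hΦ, hlim⟩ := limit hn h₀ hgc hl hgood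
  obtain ⟨e, M, hrel⟩ := relForm hC hn hf e₀
  -- the weight
  have hlarge : ∀ᶠ k' : ℕ in atTop, (3 * qq + 2 * (n * n + 1) ≤ m * k' ∧ M * qq ≤ m * k') ∧
      0 < m * k' ∧ ∀ D ∈ 𝒜, ((3 * qq : ℕ) : ℝ) ≤ ((m * k' : ℕ) : ℝ) * Δ D := by
    have ht : Tendsto (fun k' : ℕ => m * k') atTop atTop := tendsto_id.const_mul_atTop' hm
    refine ((ht.eventually_ge_atTop _).and (ht.eventually_ge_atTop _)).and
      ((ht.eventually_gt_atTop 0).and ((Finset.eventually_all 𝒜).2 fun D hD => ?_))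
    have ht' : Tendsto (fun k' : ℕ => ((m * k' : ℕ) : ℝ) * Δ D) atTop atTop :=
      (tendsto_natCast_atTop_atTop.comp ht).atTop_mul_const (h𝒜Δ D hD)
    exact ht'.eventually_ge_atTop _
  obtain ⟨k', ⟨hu0, hind⟩, ⟨hk1, hk2⟩, hk0, hkΔ⟩ := (hlim.and hlarge).exists
  set k : ℕ := m * k' with hk
  choose Θ hΘ using fun j => exists_form (π₀ := π₀) hC hf e₀ e (Φ j) k
  have hrelj : ∀ j, RelFormT 𝒯 f S e₀ k (𝒜 : Set (Set X)) (kap 𝒜 qq) (Θ j) := fun j =>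
    hrel qq k (Φ j) hqq (hΦ j) hk1 hk2 π₀ G₀ h₀ (Θ j) (hΘ j)
  obtain ⟨hqv, hy₁, hL₁, hoff₁⟩ := hg₁.self_of_nhds
  set x₁ := q v₁ with hx₁
  have hfx₁ : f x₁ ∈ U a₀ := by rw [hy₁]; exact ha₀
  have hfq₁ : ∀ᶠ v in 𝓝 v₁, f (q v) = f (q v₁) := by
    filter_upwards [hg₁] with v hv
    rw [hv.2.1, hy₁]
  -- the values along the slice
  set s : Fin (r + 1) → (Fin d → ℂ) → ℂ := fun j v => CS Q (Φ j) k π₀ π₀ (1, g v) with hs
  have hJP : ∀ z, L a₀ z β w → JP e₀ (dM E E' f z) (dV E (fun z => e (β z)) z) ≠ 0 := by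
    intro z hz
    obtain ⟨h1, h2⟩ := hC.liftHol a₀ z β w hz
    refine JP_ne_zero e₀ fun ξ h3 h4 => ?_
    rw [(dV_equiv e h1).2] at h4
    refine h2 ξ h3 (e.injective ?_)
    rw [map_zero]
    exact h4
  have hval : ∀ᶠ v in 𝓝 v₁, ∃ J : ℂ, J ≠ 0 ∧ ∀ j, Θ j (q v) = s j v * J := by
    filter_upwards [hg₁] with v hv
    obtain ⟨h1, h2, h3, h4⟩ := hv
    refine ⟨JP e₀ (dM E E' f (q v)) (dV E (fun z => e (β z)) (q v)) ^ k,
      pow_ne_zero _ (hJP _ h3), fun j => ?_⟩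
    rw [hΘ j a₀ (q v) (by rw [h2]; exact ha₀) h4 β w h3, vl, h2]
  -- local expressions
  set c : Fin (r + 1) → X → ℂ := fun j z => CS Q (Φ j) k π₀ (π a₀ (f z)) (1, w z) with hc
  have hw₁ : HolV E w x₁ := hol_w hC h𝒜c hL₁ hoff₁
  have hch : ∀ j, HolV E (c j) x₁ := fun j =>
    CS_holV hn (hΦ j) (by omega) h₀ hC.toIsPeriodFamily hf hfx₁
      ((HolV.const (1 : ℂ) x₁).prodMk hw₁)
  have hc0 : c 0 x₁ ≠ 0 := by
    show CS Q (Φ 0) k π₀ (π a₀ (f x₁)) (1, w x₁) ≠ 0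
    rw [hy₁]
    exact hu0
  have hoffe : ∀ᶠ z in 𝓝 x₁, ∀ D ∈ 𝒜, z ∉ D :=
    (Finset.eventually_all 𝒜).2 fun D hD => (h𝒜c D hD).isOpen_compl.mem_nhds (hoff₁ D hD)
  have hev : ∀ᶠ z in 𝓝 x₁, Θ 0 z ≠ 0 ∧ ∀ j, Θ j z / Θ 0 z = c j z / c 0 z := by
    filter_upwards [hC.near a₀ x₁ β w hL₁,
      (hf x₁).continuousAt.eventually ((hC.isOpen a₀).mem_nhds hfx₁),
      (hch 0).continuousAt.eventually_ne hc0, hoffe] with z h1 h2 h3 h4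
    have h5 := pow_ne_zero k (hJP z h1)
    have h6 : ∀ j, Θ j z = c j z * JP e₀ (dM E E' f z) (dV E (fun z => e (β z)) z) ^ k :=
      fun j => hΘ j a₀ z h2 h4 β w h1
    refine ⟨by rw [h6 0]; exact mul_ne_zero h3 h5, fun j => ?_⟩
    rw [h6 j, h6 0]
    exact mul_div_mul_right _ _ h5
  have hratio : ∀ j, HolV E (fun z => Θ j z / Θ 0 z) x₁ := fun j =>
    ((hch j).div (hch 0) hc0).congr (hev.mono fun z hz => hz.2 j)
  refine ⟨k, (𝒜 : Set (Set X)), kap 𝒜 qq, Θ 0, fun j => Θ j.succ, hk0, 𝒜.finite_toSet,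
    fun D hD => h𝒜 D (Finset.mem_coe.1 hD), hrelj 0, fun j => hrelj j.succ, ?_, x₁, hy₁,
    hev.mono fun z hz => hz.1, fun j => hratio j.succ, ?_⟩
  · intro D
    unfold kap
    by_cases hD : D ∈ 𝒜
    · rw [if_pos hD]
      exact hkΔ D hD
    · rw [if_neg hD, Nat.cast_zero]
      exact mul_nonneg (Nat.cast_nonneg _) (hΔ D)
  · intro a ha
    have h1 := hind a fun ξ => ?_
    · exact fun j => congrFun h1 j
    · have h2 := ha ((mfderiv 𝓘(ℂ, Fin d → ℂ) 𝓘(ℂ, E) q v₁ : (Fin d → ℂ) →L[ℂ] E) ξ)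
        (slice_ker hf hqv hfq₁ ξ)
      rw [← h2]
      refine Finset.sum_congr rfl fun j _ => ?_
      congr 1
      have h3 : (fun w => s j.succ w / s 0 w) =ᶠ[𝓝 v₁]
          fun w => Θ j.succ (q w) / Θ 0 (q w) := by
        filter_upwards [hval] with w hw
        obtain ⟨J, hJ, hJe⟩ := hw
        rw [hJe, hJe, mul_div_mul_right _ _ hJ]
      have h4 := (slice_fderiv hqv (hratio j.succ)).2
      have h5 := h3.fderiv_eq (𝕜 := ℂ)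
      rw [h4] at h5
      exact congrArg (fun L : (Fin d → ℂ) →L[ℂ] ℂ => L ξ) h5

end Forms

end Vale.Agent.P281.H511.D
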