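import Vale.Agent.P281.H511.D.Has
import Vale.Agent.P281.H64.TD.SpecB

/-!
# P281, project T-Delta, blocks D5 + D6 (helper511): `HasDStmt`
-/

open scoped Manifold ContDiff Topology
open Set Filter Metric Module

namespace Vale.Agent.P281.H511.D

open Vale.Agent.P281 Vale.Agent.P281.MF Vale.Agent.P281.ISO Vale.Agent.P281.ELL
open Vale.Agent.P281.H713 Vale.Agent.P281.H64.TU
open Vale.Agent.P281.H64.TD (IsTorD RankD HasDStmt)

set_option linter.unusedSectionVars false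

variable {E E' : Type} [NormedAddCommGroup E] [NormedSpace ℂ E] [FiniteDimensional ℂ E]
  [NormedAddCommGroup E'] [NormedSpace ℂ E'] [FiniteDimensional ℂ E']
variable {X Y : Type} [TopologicalSpace X] [ChartedSpace E X] [IsManifold 𝓘(ℂ, E) ω X]
  [TopologicalSpace Y] [ChartedSpace E' Y] [IsManifold 𝓘(ℂ, E') ω Y]
variable {V : Type} [NormedAddCommGroup V] [InnerProductSpace ℂ V] [FiniteDimensional ℂ V]
variable {n d r : ℕ} {Q : (Fin n → ℝ) → (Fin n → ℝ) → ℝ}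
variable {f : X → Y} {S : Set Y} {ι : Type} {U : ι → Set Y}
  {π : ι → Y → ((Fin n → ℝ) ≃L[ℝ] V)} {𝒯 : Tame (Fin d → ℂ) X}
  {𝒜 : Set (Set X)} {L : ι → X → (X → V) → (X → Cub V) → Prop}

/-- coordinates and minors -/
theorem det_eq_minor (e : V ≃L[ℂ] (Fin d → ℂ)) {h : (Fin d → ℂ) → V} {v : Fin d → ℂ}
    (hh : DifferentiableAt ℂ h v) :
    (fderiv ℂ (fun u => e (h u)) v).det =
      minor (fun i => (ContinuousLinearMap.proj i).comp (e : V →L[ℂ] (Fin d → ℂ))) h v := by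
  have h1 : fderiv ℂ (fun u => e (h u)) v = (e : V →L[ℂ] (Fin d → ℂ)).comp (fderiv ℂ h v) :=
    (((e : V →L[ℂ] (Fin d → ℂ)).hasFDerivAt).comp v hh.hasFDerivAt).fderiv
  rw [h1]
  unfold minor
  have h2 : ((e : V →L[ℂ] (Fin d → ℂ)).comp (fderiv ℂ h v)).det =
      (LinearMap.toMatrix' (((e : V →L[ℂ] (Fin d → ℂ)).comp (fderiv ℂ h v) :
        (Fin d → ℂ) →L[ℂ] (Fin d → ℂ)) : (Fin d → ℂ) →ₗ[ℂ] (Fin d → ℂ))).det := by
    rw [LinearMap.det_toMatrix']
  rw [h2]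
  congr 1

theorem torFam (hC : IsTorD E E' d 𝒯 f S Q U π 𝒜 L) (h𝒜 : 𝒜.Finite) :
    TorFam E E' d 𝒯 f S Q U π h𝒜.toFinset L := by
  have hmem : ∀ D, D ∈ h𝒜.toFinset ↔ D ∈ 𝒜 := fun D => h𝒜.mem_toFinset
  refine { toIsPeriodFamily := hC.toIsPeriodFamily, lift := hC.lift, liftHol := hC.bhol,
           pole := ?_, near := hC.near, change := ?_, bound := ?_ }
  · intro a x β w hβ e he
    obtain ⟨H, hH, hHe⟩ := hC.pole a x β w hβ h𝒜.toFinset e (fun D hD => (hmem D).2 hD) he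
    refine ⟨H, hH, ?_⟩
    filter_upwards [hHe] with z hz hz'
    exact hz fun D hD => hz' D ((hmem D).2 hD)
  · intro a b x ha hb β w β' w' hβ hβ'
    obtain ⟨G, c, hG, hGc⟩ := hC.change a b x ha hb β w β' w' hβ hβ'
    refine ⟨G, c, hG, ?_⟩
    filter_upwards [hGc] with z hz hzx
    exact ⟨(hz hzx).1, fun h => (hz hzx).2 fun D hD => h D ((hmem D).2 hD)⟩
  · obtain ⟨M, hM⟩ := hC.bound
    set b : OrthonormalBasis (Fin d) ℂ V :=
      (stdOrthonormalBasis ℂ V).reindex (finCongr hC.dim) with hb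
    set e : V ≃L[ℂ] (Fin d → ℂ) :=
      b.repr.toContinuousLinearEquiv.trans (EuclideanSpace.equiv (Fin d) ℂ) with he
    have hei : ∀ v i, e v i = inner ℂ (b i) v := fun v i => b.repr_apply_apply v i
    refine ⟨e, M, fun ρ K hρ hK => ?_⟩
    obtain ⟨B, hB⟩ := hM ρ K hρ hK
    refine ⟨max (‖(e : V →L[ℂ] (Fin d → ℂ))‖ * B) B, fun a q v₀ h1 h2 h3 h4 => ?_⟩
    obtain ⟨β, w, hβ, hβw⟩ := hB a q v₀ h1 h2 h3
      fun v hv D hD => h4 v hv D ((hmem D).2 hD)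
    refine ⟨β, w, hβ, fun G hG => ?_⟩
    obtain ⟨h5, h6⟩ := hβw G hG
    by_cases hd : DifferentiableAt ℂ (fun u => G (β (q u))) v₀
    · have h7 : fderiv ℂ (fun u => e (G (β (q u)))) v₀ =
          (e : V →L[ℂ] (Fin d → ℂ)).comp (fderiv ℂ (fun u => G (β (q u))) v₀) :=
        (((e : V →L[ℂ] (Fin d → ℂ)).hasFDerivAt).comp v₀ hd.hasFDerivAt).fderiv
      constructor
      · rw [h7]
        refine ((ContinuousLinearMap.opNorm_comp_le _ _).trans ?_).trans (le_max_left _ _)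
        exact mul_le_mul_of_nonneg_left h5 (norm_nonneg _)
      · rw [det_eq_minor e hd]
        refine (h6 _ fun i => ?_).trans (le_max_right _ _)
        refine ContinuousLinearMap.opNorm_le_bound _ zero_le_one fun v => ?_
        show ‖e v i‖ ≤ 1 * ‖v‖
        rw [hei, one_mul]
        refine (norm_inner_le_norm _ _).trans ?_
        rw [b.orthonormal.1 i, one_mul]
    · exfalso
      have hh := (hC.bhol a _ β w hβ).1
      have h8 := (slice_fderiv (h1.1 v₀ (mem_ball_self hρ)) hh).1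
      exact hd (G.differentiable.differentiableAt.comp v₀ (h8.differentiableAt (by simp)))

/-- **D5 + D6** -/
theorem hasD : HasDStmt := by
  intro p d r n X Y _ _ _ _ _ _ 𝒯 f S Q ι U π 𝒜 L e₀ Δ hd hf hC h𝒜 hprime hΔ0 hΔ y _ hrk
  obtain ⟨a, ha, q, v₀, hq, hfq, hq𝒜, hl⟩ := hrk
  have hmem : ∀ D, D ∈ h𝒜.toFinset ↔ D ∈ 𝒜 := fun D => h𝒜.mem_toFinset
  exact hasForms_tor (torFam hC h𝒜) hd (fun x => hf x) e₀ hΔ0
    (fun D hD => hprime D ((hmem D).1 hD)) (fun D hD => hΔ D ((hmem D).1 hD)) ha hq hfq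
    (fun D hD => hq𝒜 D ((hmem D).1 hD)) hl

end Vale.Agent.P281.H511.D
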