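import Vale.Agent.P281.H511.D.Ser
import Vale.Agent.P281.H64.TU.Spec

/-!
# P281, project T-Delta, block D5 (helper511): the relative forms of a family of tori with a divisor
-/

open scoped Manifold ContDiff Topology
open Set Filter Metric Module

namespace Vale.Agent.P281.H511.D

open Vale.Agent.P281 Vale.Agent.P281.MF Vale.Agent.P281.ISO Vale.Agent.P281.ELL
open Vale.Agent.P281.H713 Vale.Agent.P281.H64.TU

set_option linter.unusedSectionVars false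

section Fam

variable (E E' : Type) [NormedAddCommGroup E] [NormedSpace ℂ E]
  [NormedAddCommGroup E'] [NormedSpace ℂ E']
variable {X Y : Type} [TopologicalSpace X] [ChartedSpace E X]
  [TopologicalSpace Y] [ChartedSpace E' Y]
variable {V : Type} [NormedAddCommGroup V] [InnerProductSpace ℂ V] [FiniteDimensional ℂ V]

/-- A family of (finite étale quotients of) tori, with a divisor `𝒜` and the third derivatives `w`
of the logarithm of its theta functions. -/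
structure TorFam {n : ℕ} (d : ℕ) (T : Tame (Fin d → ℂ) X) (f : X → Y) (S : Set Y)
    (Q : (Fin n → ℝ) → (Fin n → ℝ) → ℝ) {ι : Type} (U : ι → Set Y)
    (π : ι → Y → ((Fin n → ℝ) ≃L[ℝ] V)) (𝒜 : Finset (Set X))
    (L : ι → X → (X → V) → (X → Cub V) → Prop) : Prop
    extends IsPeriodFamily E' S Q U π where
  lift : ∀ a x, f x ∈ U a → ∃ β w, L a x β w
  liftHol : ∀ a x β w, L a x β w → HolV E β x ∧
    ∀ ξ, dM E E' f x ξ = 0 → dV E β x ξ = 0 → ξ = 0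
  pole : ∀ a x β w, L a x β w → ∀ e : Set X → X → ℂ, (∀ D ∈ 𝒜, IsLocalEq E D (e D) x) →
    ∃ H : X → Cub V, HolV E H x ∧
      ∀ᶠ z in 𝓝 x, (∀ D ∈ 𝒜, z ∉ D) → (∏ D ∈ 𝒜, e D z) ^ 3 • w z = H z
  near : ∀ a x β w, L a x β w → ∀ᶠ z in 𝓝 x, L a z β w
  change : ∀ a b x, f x ∈ U a → f x ∈ U b → ∀ β w β' w', L a x β w → L b x β' w' →
    ∃ (G : V ≃L[ℂ] V) (c : V), IsPeriodChange Q (π a (f x)) (π b (f x)) G ∧
      ∀ᶠ z in 𝓝 x, f z = f x → β' z = G (β z) + c ∧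
        ((∀ D ∈ 𝒜, z ∉ D) → w z = pull (w' z) (G : V →L[ℂ] V))
  bound : ∃ (e : V ≃L[ℂ] (Fin d → ℂ)) (M : ℕ), ∀ ρ K : ℝ, 0 < ρ → 0 < K →
    ∃ B : ℝ, ∀ a q v₀, IsPolydisc E f q v₀ ρ → T K q v₀ ρ → f (q v₀) ∈ U a →
      (∀ v ∈ ball v₀ ρ, ∀ D ∈ 𝒜, q v ∉ D) → ∃ β w, L a (q v₀) β w ∧
      ∀ G : V ≃L[ℂ] V, IsPol Q (π a (f (q v₀))) G →
        ‖fderiv ℂ (fun u => e (G (β (q u)))) v₀‖ ≤ B ∧
        ‖(fderiv ℂ (fun u => e (G (β (q u)))) v₀).det‖ ^ M *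
          ‖pull (w (q v₀)) (G.symm : V →L[ℂ] V)‖ ≤ B

end Fam

section Forms

variable {E E' : Type} [NormedAddCommGroup E] [NormedSpace ℂ E] [FiniteDimensional ℂ E]
  [NormedAddCommGroup E'] [NormedSpace ℂ E'] [FiniteDimensional ℂ E']
variable {X Y : Type} [TopologicalSpace X] [ChartedSpace E X] [IsManifold 𝓘(ℂ, E) ω X]
  [TopologicalSpace Y] [ChartedSpace E' Y] [IsManifold 𝓘(ℂ, E') ω Y]
variable {V : Type} [NormedAddCommGroup V] [InnerProductSpace ℂ V] [FiniteDimensional ℂ V]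
variable {n d r : ℕ} {Q : (Fin n → ℝ) → (Fin n → ℝ) → ℝ}
variable {f : X → Y} {S : Set Y} {ι : Type} {U : ι → Set Y}
  {π : ι → Y → ((Fin n → ℝ) ≃L[ℝ] V)} {𝒯 : Tame (Fin d → ℂ) X}
  {𝒜 : Finset (Set X)} {L : ι → X → (X → V) → (X → Cub V) → Prop}
variable {q k : ℕ} {φ : ℂ × Cub V → ℂ} {π₀ : (Fin n → ℝ) ≃L[ℝ] V} {G₀ : V ≃L[ℂ] V}

/-- The series of the periods of a family is holomorphic. -/
theorem CS_holV (hn : 0 < n) (hφ : IsHom q φ) (hk : 3 * q + (n * n + 1) ≤ k)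
    (h₀ : IsPol Q π₀ G₀) (hP : IsPeriodFamily E' S Q U π) (hf : ∀ x, HolM E E' f x) {a : ι}
    {x : X} (hx : f x ∈ U a) {w : X → ℂ × Cub V} (hw : HolV E w x) :
    HolV E (fun z => CS Q φ k π₀ (π a (f z)) (w z)) x := by
  have hxs : x ∈ (chartAt E x).source := mem_chart_source E x
  refine HolV.of_rep hxs ?_
  have hsymm : Tendsto (chartAt E x).symm (𝓝 (chartAt E x x)) (𝓝 x) := tendsto_symm x
  have hcov : ∀ᶠ z in 𝓝 x, f z ∈ U a ∧ HolV E w z ∧ z ∈ (chartAt E x).source := by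
    filter_upwards [(hf x).continuousAt.eventually ((hP.isOpen a).mem_nhds hx), hw.eventually,
      (chartAt E x).open_source.mem_nhds hxs] with z h1 h2 h3 using ⟨h1, h2, h3⟩
  have hev : ∀ᶠ c in 𝓝 (chartAt E x x), f ((chartAt E x).symm c) ∈ U a ∧
      HolV E w ((chartAt E x).symm c) ∧ (chartAt E x).symm c ∈ (chartAt E x).source ∧
      c ∈ (chartAt E x).target := by
    filter_upwards [hsymm.eventually hcov,
      (chartAt E x).open_target.mem_nhds ((chartAt E x).map_source hxs)] with c h1 h2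
      using ⟨h1.1, h1.2.1, h1.2.2, h2⟩
  obtain ⟨U', hU'1, hU'2, hU'3⟩ := _root_.eventually_nhds_iff.1 hev
  have hd : ∀ {W : Type} [NormedAddCommGroup W] [NormedSpace ℂ W] (h : X → W),
      (∀ c ∈ U', HolV E h ((chartAt E x).symm c)) →
      DifferentiableOn ℂ (fun c => h ((chartAt E x).symm c)) U' := by
    intro W _ _ h hh c hc
    have h1 := (hh c hc).rep (hU'1 c hc).2.2.1
    rw [(chartAt E x).right_inv (hU'1 c hc).2.2.2] at h1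
    exact (h1.differentiableAt (by simp)).differentiableWithinAt
  refine (CS_analytic hn hφ hk h₀ hU'2 (π := fun c => π a (f ((chartAt E x).symm c)))
    (fun v => hd (fun z => π a (f z) v) fun c hc => HolV.comp (E' := E') (h := fun y => π a y v)
      (hP.hol a v _ (hU'1 c hc).1) (hf _))
    (fun c hc => ?_) (w := fun c => w ((chartAt E x).symm c))
    (hd w fun c hc => (hU'1 c hc).2.1) hU'3).contDiffAt
  exact hP.polarized a _ (hU'1 c hc).1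

theorem dV_equiv (e : V ≃L[ℂ] (Fin d → ℂ)) {β : X → V} {x : X} (hβ : HolV E β x) :
    HolV E (fun z => e (β z)) x ∧
      dV E (fun z => e (β z)) x = (e : V →L[ℂ] (Fin d → ℂ)).comp (dV E β x) := by
  have he : ContDiffAt ℂ ω (fun v : V => e v) (β x) := e.contDiff.contDiffAt
  refine ⟨HolV.comp_contDiff he hβ, ?_⟩
  have h1 := dV_comp_contDiff he hβ
  have h2 : fderiv ℂ (fun v : V => e v) (β x) = (e : V →L[ℂ] (Fin d → ℂ)) := e.fderiv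
  rw [h2] at h1
  exact h1

/-- conjugation of an automorphism of `V` -/
noncomputable def conjE (e : V ≃L[ℂ] (Fin d → ℂ)) (G : V ≃L[ℂ] V) :
    (Fin d → ℂ) ≃L[ℂ] (Fin d → ℂ) := e.symm.trans (G.trans e)

theorem conjE_apply (e : V ≃L[ℂ] (Fin d → ℂ)) (G : V ≃L[ℂ] V) (u : V) :
    conjE e G (e u) = e (G u) := by
  show e (G (e.symm (e u))) = _
  rw [e.symm_apply_apply]

theorem conjE_det (e : V ≃L[ℂ] (Fin d → ℂ)) (G : V ≃L[ℂ] V) :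
    (conjE e G : (Fin d → ℂ) →L[ℂ] (Fin d → ℂ)).det = (G : V →L[ℂ] V).det :=
  LinearMap.det_conj (G : V →ₗ[ℂ] V) e.toLinearEquiv

/-- the value of the form at `x` -/
noncomputable def vl (E E' : Type) [NormedAddCommGroup E] [NormedSpace ℂ E]
    [FiniteDimensional ℂ E] [NormedAddCommGroup E'] [NormedSpace ℂ E'] [FiniteDimensional ℂ E']
    {X Y : Type} [TopologicalSpace X] [ChartedSpace E X]
    [TopologicalSpace Y] [ChartedSpace E' Y] {V : Type} [NormedAddCommGroup V]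
    [InnerProductSpace ℂ V] [FiniteDimensional ℂ V] {n d : ℕ} (f : X → Y)
    (e₀ : E ≃L[ℂ] (E' × (Fin d → ℂ))) (e : V ≃L[ℂ] (Fin d → ℂ))
    (Q : (Fin n → ℝ) → (Fin n → ℝ) → ℝ) (φ : ℂ × Cub V → ℂ) (k : ℕ)
    (π₀ π : (Fin n → ℝ) ≃L[ℝ] V) (β : X → V) (w : X → Cub V) (x : X) : ℂ :=
  CS Q φ k π₀ π (1, w x) * JP e₀ (dM E E' f x) (dV E (fun z => e (β z)) x) ^ k

/-- the value of the form is well defined -/
theorem vl_indep (hC : TorFam E E' d 𝒯 f S Q U π 𝒜 L) (hf : ∀ x, HolM E E' f x)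
    (e₀ : E ≃L[ℂ] (E' × (Fin d → ℂ))) (e : V ≃L[ℂ] (Fin d → ℂ)) {a b : ι} {x : X}
    (hx : ∀ D ∈ 𝒜, x ∉ D) (ha : f x ∈ U a) (hb : f x ∈ U b) {β β' : X → V}
    {w w' : X → Cub V} (hβ : L a x β w) (hβ' : L b x β' w') :
    vl E E' f e₀ e Q φ k π₀ (π b (f x)) β' w' x = vl E E' f e₀ e Q φ k π₀ (π a (f x)) β w x := by
  obtain ⟨G, c, hG, hGc⟩ := hC.change a b x ha hb β w β' w' hβ hβ'
  obtain ⟨h1, h2⟩ := hC.liftHol a x β w hβ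
  obtain ⟨h3, -⟩ := hC.liftHol b x β' w' hβ'
  have h4 : w x = pull (w' x) (G : V →L[ℂ] V) := (hGc.self_of_nhds rfl).2 hx
  have h5 : JP e₀ (dM E E' f x) (dV E (fun z => e (β' z)) x) =
      (G : V →L[ℂ] V).det * JP e₀ (dM E E' f x) (dV E (fun z => e (β z)) x) := by
    have h6 := JP_change hf e₀ (dV_equiv e h1).1 (dV_equiv e h3).1 (fun ξ h7 h8 => ?_)
      (G := conjE e G) (c := e c) (hGc.mono fun z hz hzx => ?_)
    · rw [conjE_det] at h6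
      exact h6
    · rw [(dV_equiv e h1).2] at h8
      refine h2 ξ h7 (e.injective ?_)
      rw [map_zero]
      exact h8
    · rw [(hz hzx).1, map_add, conjE_apply]
  unfold vl
  rw [CS_change hG, ← h4, h5, mul_pow]
  have h7 := pow_ne_zero k (det_equiv_ne G)
  rw [inv_pow]
  field_simp

/-- the property which characterizes the form `Θ` -/
def IsVal (𝒜 : Finset (Set X)) (L : ι → X → (X → V) → (X → Cub V) → Prop)
    (e₀ : E ≃L[ℂ] (E' × (Fin d → ℂ))) (e : V ≃L[ℂ] (Fin d → ℂ))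
    (Q : (Fin n → ℝ) → (Fin n → ℝ) → ℝ) (φ : ℂ × Cub V → ℂ) (k : ℕ)
    (π₀ : (Fin n → ℝ) ≃L[ℝ] V) (f : X → Y) (U : ι → Set Y)
    (π : ι → Y → ((Fin n → ℝ) ≃L[ℝ] V)) (Θ : X → ℂ) : Prop :=
  ∀ a x, f x ∈ U a → (∀ D ∈ 𝒜, x ∉ D) → ∀ β w, L a x β w →
    Θ x = vl E E' f e₀ e Q φ k π₀ (π a (f x)) β w x

/-- the forms -/
theorem exists_form (hC : TorFam E E' d 𝒯 f S Q U π 𝒜 L) (hf : ∀ x, HolM E E' f x)
    (e₀ : E ≃L[ℂ] (E' × (Fin d → ℂ))) (e : V ≃L[ℂ] (Fin d → ℂ)) (φ : ℂ × Cub V → ℂ) (k : ℕ)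
    (π₀ : (Fin n → ℝ) ≃L[ℝ] V) : ∃ Θ : X → ℂ, IsVal 𝒜 L e₀ e Q φ k π₀ f U π Θ := by
  classical
  have hex : ∀ x, ∃ θ : ℂ, ∀ a, f x ∈ U a → (∀ D ∈ 𝒜, x ∉ D) → ∀ β w, L a x β w →
      θ = vl E E' f e₀ e Q φ k π₀ (π a (f x)) β w x := by
    intro x
    by_cases hx : ∃ a, f x ∈ U a
    · obtain ⟨a, ha⟩ := hx
      obtain ⟨β, w, hβ⟩ := hC.lift a x ha
      exact ⟨_, fun b hb hx β' w' hβ' => (vl_indep hC hf e₀ e hx ha hb hβ hβ').symm⟩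
    · exact ⟨0, fun a ha => absurd ⟨a, ha⟩ hx⟩
  choose Θ hΘ using hex
  exact ⟨Θ, fun a x => hΘ x a⟩

open Classical in
/-- the pole orders of the forms -/
noncomputable def kap (𝒜 : Finset (Set X)) (q : ℕ) (D : Set X) : ℕ :=
  if D ∈ 𝒜 then 3 * q else 0

theorem kap_prod {𝒜 : Finset (Set X)} {q : ℕ} (hq : 0 < q) {T : Finset (Set X)}
    (hT : ∀ D, kap 𝒜 q D ≠ 0 → D ∈ T) (e : Set X → X → ℂ) (z : X) :
    ∏ D ∈ T, e D z ^ kap 𝒜 q D = ((∏ D ∈ 𝒜, e D z) ^ 3) ^ q := by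
  classical
  have h1 : 𝒜 ⊆ T := fun D hD => hT D (by
    unfold kap
    rw [if_pos hD]
    omega)
  rw [← Finset.prod_subset h1 (f := fun D => e D z ^ kap 𝒜 q D) (fun D _ hD => by
    unfold kap
    rw [if_neg hD, pow_zero]), ← pow_mul, ← Finset.prod_pow]
  refine Finset.prod_congr rfl fun D hD => ?_
  unfold kap
  rw [if_pos hD]

/-- holomorphy of the coefficients -/
theorem form_local (hC : TorFam E E' d 𝒯 f S Q U π 𝒜 L) (hn : 0 < n)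
    (hf : ∀ x, HolM E E' f x) (e₀ : E ≃L[ℂ] (E' × (Fin d → ℂ))) (e : V ≃L[ℂ] (Fin d → ℂ))
    (hφ : IsHom q φ) (hk : 3 * q + (n * n + 1) ≤ k) (h₀ : IsPol Q π₀ G₀) {Θ : X → ℂ}
    (hΘ : IsVal 𝒜 L e₀ e Q φ k π₀ f U π Θ) {x : X} {a : ι} (ha : f x ∈ U a)
    {β : X → V} {w : X → Cub V} (hβ : L a x β w) {eD : Set X → X → ℂ}
    (heD : ∀ D ∈ 𝒜, IsLocalEq E D (eD D) x) :
    ∃ (c : X → ℂ), HolV E c x ∧ ∀ᶠ z in 𝓝 x, (∀ D ∈ 𝒜, z ∉ D) →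
      Θ z * ((∏ D ∈ 𝒜, eD D z) ^ 3) ^ q =
        c z * JP e₀ (dM E E' f z) (dV E (fun z => e (β z)) z) ^ k := by
  obtain ⟨H, hH, hHe⟩ := hC.pole a x β w hβ eD heD
  have ht : HolV E (fun z => (∏ D ∈ 𝒜, eD D z) ^ 3) x := by
    refine HolV.pow (HolV.prod fun D hD => ?_) 3
    obtain ⟨W, -, hxW, h1, -⟩ := heD D hD
    exact h1 x hxW
  refine ⟨fun z => CS Q φ k π₀ (π a (f z)) ((∏ D ∈ 𝒜, eD D z) ^ 3, H z),
    CS_holV hn hφ hk h₀ hC.toIsPeriodFamily hf ha (ht.prodMk hH), ?_⟩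
  filter_upwards [hC.near a x β w hβ, (hf x).continuousAt.eventually ((hC.isOpen a).mem_nhds ha),
    hHe] with z h1 h2 h3 h4
  rw [hΘ a z h2 h4 β w h1, vl]
  have h5 := CS_smul (Q := Q) (π₀ := π₀) (π := π a (f z)) hφ k ((∏ D ∈ 𝒜, eD D z) ^ 3)
    ((1, w z) : ℂ × Cub V)
  have h6 : ((∏ D ∈ 𝒜, eD D z) ^ 3) • ((1, w z) : ℂ × Cub V) =
      ((∏ D ∈ 𝒜, eD D z) ^ 3, H z) := by
    refine Prod.ext ?_ (h3 h4)
    show (∏ D ∈ 𝒜, eD D z) ^ 3 * 1 = _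
    rw [mul_one]
  rw [h6] at h5
  rw [h5]
  ring

/-- bounded determinants -/
theorem det_le (B : ℝ) : ∃ B₁ : ℝ, 0 ≤ B₁ ∧ ∀ A : (Fin d → ℂ) →L[ℂ] (Fin d → ℂ),
    ‖A‖ ≤ B → ‖A.det‖ ≤ B₁ := by
  have hc : Continuous fun A : (Fin d → ℂ) →L[ℂ] (Fin d → ℂ) => A.det := contDiff_det'.continuous
  obtain ⟨C, hC⟩ := (isCompact_closedBall (0 : (Fin d → ℂ) →L[ℂ] (Fin d → ℂ)) B
    ).exists_bound_of_continuousOn hc.continuousOn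
  refine ⟨max C 0, le_max_right _ _, fun A hA => (hC A ?_).trans (le_max_left _ _)⟩
  rw [mem_closedBall_zero_iff]
  exact hA

/-- the uniform bound on tame slices -/
theorem form_bound (hC : TorFam E E' d 𝒯 f S Q U π 𝒜 L) (hn : 0 < n)
    (hf : ∀ x, HolM E E' f x) (e₀ : E ≃L[ℂ] (E' × (Fin d → ℂ))) :
    ∃ (e : V ≃L[ℂ] (Fin d → ℂ)) (M : ℕ), ∀ (q k : ℕ) (φ : ℂ × Cub V → ℂ), IsHom q φ →
      3 * q + 2 * (n * n + 1) ≤ k → M * q ≤ k → ∀ (π₀ : (Fin n → ℝ) ≃L[ℝ] V) (G₀ : V ≃L[ℂ] V),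
      IsPol Q π₀ G₀ → ∀ Θ : X → ℂ, IsVal 𝒜 L e₀ e Q φ k π₀ f U π Θ → ∀ ρ K : ℝ, 0 < ρ → 0 < K →
    ∃ C : ℝ, ∀ (v₀ : Fin d → ℂ) (q : (Fin d → ℂ) → X),
      (∀ v ∈ ball v₀ ρ, ContMDiffAt 𝓘(ℂ, Fin d → ℂ) 𝓘(ℂ, E) ω q v) → InjOn q (ball v₀ ρ) →
      (∀ v ∈ ball v₀ ρ, f (q v) = f (q v₀)) → f (q v₀) ∉ S →
      (∀ v ∈ ball v₀ ρ, ∀ D ∈ 𝒜, q v ∉ D) → 𝒯 K q v₀ ρ →
      ∀ P : E →L[ℂ] (Fin d → ℂ),
      P.comp (mfderiv 𝓘(ℂ, Fin d → ℂ) 𝓘(ℂ, E) q v₀ : (Fin d → ℂ) →L[ℂ] E) =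
        ContinuousLinearMap.id ℂ (Fin d → ℂ) →
      ‖Θ (q v₀)‖ ≤ C * ‖JP e₀ (dM E E' f (q v₀)) P ^ k‖ := by
  obtain ⟨e, M, hM⟩ := hC.bound
  refine ⟨e, M, fun q k φ hφ hk hkM π₀ G₀ h₀ Θ hΘ ρ K hρ hK => ?_⟩
  obtain ⟨B, hB⟩ := hM ρ K hρ hK
  obtain ⟨B₁, hB₁0, hB₁⟩ := det_le (d := d) B
  obtain ⟨Kφ, hKφ, hφK⟩ := hφ.grow
  set c₀ : ℝ := ‖(G₀ : V →L[ℂ] V).det‖⁻¹ with hc₀
  set c₁ : ℝ := 8 * ‖(G₀ : V →L[ℂ] V)‖ ^ 3 with hc₁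
  have hc₀0 : 0 ≤ c₀ := by positivity
  have hc₁0 : 0 ≤ c₁ := by positivity
  refine ⟨Kφ * c₀ ^ k * |CP Q π₀ G₀| * ((B₁ ^ M + c₁ * |B|) ^ q * B₁ ^ (k - M * q)),
    fun v₀ s h1 h2 h3 h4 h5 hTm P h6 => ?_⟩
  obtain ⟨a, ha⟩ := (hC.cover _).1 h4
  obtain ⟨β, w, hβ, hβw⟩ := hB a s v₀ ⟨h1, h2, h3⟩ hTm ha h5
  obtain ⟨G, hG⟩ : ∃ G, IsPol Q (π a (f (s v₀))) G := hC.polarized a _ ha
  obtain ⟨h7, h8⟩ := hβw G hG
  obtain ⟨hh1, hh2⟩ := hC.liftHol a _ β w hβ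
  obtain ⟨he1, he2⟩ := dV_equiv e hh1
  have hv₀ : v₀ ∈ ball v₀ ρ := mem_ball_self hρ
  have hker : ∀ ξ, dM E E' f (s v₀) ξ = 0 → dV E (fun z => e (β z)) (s v₀) ξ = 0 → ξ = 0 := by
    intro ξ h9 h10
    rw [he2] at h10
    refine hh2 ξ h9 (e.injective ?_)
    rw [map_zero]
    exact h10
  have h9 := JP_slice hf e₀ (h1 v₀ hv₀) (eventually_of_mem (ball_mem_nhds v₀ hρ)
    fun v hv => h3 v hv) he1 hker h6
  -- the determinant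
  set D₀ : (Fin d → ℂ) →L[ℂ] (Fin d → ℂ) := fderiv ℂ (fun z => e (β (s z))) v₀ with hD₀
  set D₁ : (Fin d → ℂ) →L[ℂ] (Fin d → ℂ) := fderiv ℂ (fun z => e (G (β (s z)))) v₀ with hD₁
  have hcomp : D₁ = (conjE e G : (Fin d → ℂ) →L[ℂ] (Fin d → ℂ)).comp D₀ := by
    have h10 : (fun z => e (G (β (s z)))) = fun z => conjE e G (e (β (s z))) := by
      funext z
      rw [conjE_apply]
    rw [hD₁, h10, hD₀]
    exact (conjE e G).comp_fderiv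
  have hdet : D₁.det = (G : V →L[ℂ] V).det * D₀.det := by
    rw [hcomp, ← conjE_det e G]
    exact LinearMap.det_comp _ _
  have hJ := hB₁ D₁ h7
  set W : ℝ := ‖pull (w (s v₀)) (G.symm : V →L[ℂ] V)‖ with hW
  have hW0 : 0 ≤ W := norm_nonneg _
  have h8' : ‖D₁.det‖ ^ M * W ≤ |B| := h8.trans (le_abs_self B)
  rw [hΘ a _ ha (fun D hD => h5 v₀ hv₀ D hD) β w hβ, vl, h9, mul_pow, norm_mul, norm_mul,
    ← mul_assoc]
  refine mul_le_mul_of_nonneg_right ?_ (norm_nonneg _)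
  have h10 := (CS_bound hn hKφ hφK hk h₀ hG ((1, w (s v₀)) : ℂ × Cub V)).2
  have h11 : ‖((1, w (s v₀)) : ℂ × Cub V).1‖ = 1 := norm_one
  rw [h11] at h10
  have h12 : ‖CS Q φ k π₀ (π a (f (s v₀))) (1, w (s v₀))‖ ≤
      Kφ * (1 + c₁ * W) ^ q * (‖(G : V →L[ℂ] V).det‖ * c₀) ^ k * |CP Q π₀ G₀| :=
    h10.trans (mul_le_mul_of_nonneg_left (le_abs_self _) (by positivity))
  have h13 : (1 + c₁ * W) ^ q * ‖D₁.det‖ ^ k ≤
      (B₁ ^ M + c₁ * |B|) ^ q * B₁ ^ (k - M * q) := by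
    have h14 : ‖D₁.det‖ ^ k = (‖D₁.det‖ ^ M) ^ q * ‖D₁.det‖ ^ (k - M * q) := by
      rw [← pow_mul, ← pow_add]
      congr 1
      omega
    rw [h14, ← mul_assoc, ← mul_pow]
    have h15 : (1 + c₁ * W) * ‖D₁.det‖ ^ M ≤ B₁ ^ M + c₁ * |B| := by
      have h16 : ‖D₁.det‖ ^ M ≤ B₁ ^ M := pow_le_pow_left₀ (norm_nonneg _) hJ M
      have h17 : c₁ * (‖D₁.det‖ ^ M * W) ≤ c₁ * |B| := mul_le_mul_of_nonneg_left h8' hc₁0
      calc (1 + c₁ * W) * ‖D₁.det‖ ^ M = ‖D₁.det‖ ^ M + c₁ * (‖D₁.det‖ ^ M * W) := by ring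
        _ ≤ _ := add_le_add h16 h17
    gcongr
  rw [norm_pow]
  calc ‖CS Q φ k π₀ (π a (f (s v₀))) (1, w (s v₀))‖ * ‖D₀.det‖ ^ k
      ≤ (Kφ * (1 + c₁ * W) ^ q * (‖(G : V →L[ℂ] V).det‖ * c₀) ^ k * |CP Q π₀ G₀|) *
        ‖D₀.det‖ ^ k := mul_le_mul_of_nonneg_right h12 (by positivity)
    _ = Kφ * c₀ ^ k * |CP Q π₀ G₀| * ((1 + c₁ * W) ^ q * ‖D₁.det‖ ^ k) := by
        rw [hdet, norm_mul, mul_pow, mul_pow]
        ring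
    _ ≤ _ := by gcongr

/-- **D5**: the relative forms. -/
theorem relForm (hC : TorFam E E' d 𝒯 f S Q U π 𝒜 L) (hn : 0 < n)
    (hf : ∀ x, HolM E E' f x) (e₀ : E ≃L[ℂ] (E' × (Fin d → ℂ))) :
    ∃ (e : V ≃L[ℂ] (Fin d → ℂ)) (M : ℕ), ∀ (q k : ℕ) (φ : ℂ × Cub V → ℂ), 0 < q → IsHom q φ →
      3 * q + 2 * (n * n + 1) ≤ k → M * q ≤ k → ∀ (π₀ : (Fin n → ℝ) ≃L[ℝ] V) (G₀ : V ≃L[ℂ] V),
      IsPol Q π₀ G₀ → ∀ Θ : X → ℂ, IsVal 𝒜 L e₀ e Q φ k π₀ f U π Θ →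
      RelFormT 𝒯 f S e₀ k (𝒜 : Set (Set X)) (kap 𝒜 q) Θ := by
  obtain ⟨e, M, hM⟩ := form_bound hC hn hf e₀
  refine ⟨e, M, fun q k φ hq hφ hk hkM π₀ G₀ h₀ Θ hΘ => ⟨hol_of_local hf e₀ ?_, ?_⟩⟩
  · intro x hx T eD hT heD
    obtain ⟨a, ha⟩ := (hC.cover (f x)).1 hx
    obtain ⟨β, w, hβ⟩ := hC.lift a x ha
    have hsub : ∀ D ∈ 𝒜, IsLocalEq E D (eD D) x := fun D hD => heD D (hT D (by
      unfold kap
      rw [if_pos hD]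
      omega))
    obtain ⟨c, hc, hev⟩ := form_local hC hn hf e₀ e hφ (by omega) h₀ hΘ ha hβ hsub
    refine ⟨fun z => e (β z), c, (dV_equiv e (hC.liftHol a x β w hβ).1).1, hc, ?_⟩
    filter_upwards [hev] with z h1 h2 _
    rw [kap_prod hq hT]
    exact h1 fun D hD => h2 D (Finset.mem_coe.2 hD)
  · intro ρ K hρ hK
    obtain ⟨C, hC'⟩ := hM q k φ hφ hk hkM π₀ G₀ h₀ Θ hΘ ρ K hρ hK
    exact ⟨C, fun v₀ s h1 h2 h3 h4 h5 h6 P h7 => hC' v₀ s h1 h2 h3 h4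
      (fun v hv D hD => h5 v hv D (Finset.mem_coe.2 hD)) h6 P h7⟩

end Forms

end Vale.Agent.P281.H511.D
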