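import Vale.Agent.P281.H713.TypeI
import Vale.Agent.P281.H713.Poinc4

/-!
# P281, project T-Delta, block D5 (helper511): Poincaré series of functions of cubic forms
-/

open scoped Topology ContDiff
open Set Filter Module Metric

namespace Vale.Agent.P281.H511.D

open Vale.Agent.P281 Vale.Agent.P281.H713

set_option linter.unusedSectionVars false

section Cub

variable {V : Type} [NormedAddCommGroup V] [NormedSpace ℂ V]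

/-- Cubic (trilinear) forms. -/
abbrev Cub (V : Type) [NormedAddCommGroup V] [NormedSpace ℂ V] : Type :=
  ContinuousMultilinearMap ℂ (fun _ : Fin 3 => V) ℂ

/-- the pull-back of a cubic form -/
noncomputable def pull (w : Cub V) (L : V →L[ℂ] V) : Cub V := w.compContinuousLinearMap fun _ => L

theorem pull_apply (w : Cub V) (L : V →L[ℂ] V) (m : Fin 3 → V) :
    pull w L m = w fun i => L (m i) := rfl

theorem pull_pull (w : Cub V) (A B : V →L[ℂ] V) : pull (pull w A) B = pull w (A.comp B) := by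
  ext m
  rfl

theorem pull_id (w : Cub V) : pull w (ContinuousLinearMap.id ℂ V) = w := by
  ext m
  rfl

theorem pull_smul (c : ℂ) (w : Cub V) (L : V →L[ℂ] V) : pull (c • w) L = c • pull w L := by
  ext m
  rfl

theorem pull_add (w w' : Cub V) (L : V →L[ℂ] V) : pull (w + w') L = pull w L + pull w' L := by
  ext m
  rfl

theorem norm_pull_le (w : Cub V) (L : V →L[ℂ] V) : ‖pull w L‖ ≤ ‖w‖ * ‖L‖ ^ 3 := by
  have h := w.norm_compContinuousLinearMap_le fun _ => L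
  rw [Finset.prod_const, Finset.card_univ, Fintype.card_fin] at h
  exact h

theorem contDiff_pull : ContDiff ℂ ω (fun x : Cub V × (V →L[ℂ] V) => pull x.1 x.2) := by
  have h1 : ContDiff ℂ ω (fun x : Cub V × (V →L[ℂ] V) =>
      ContinuousMultilinearMap.compContinuousLinearMapContinuousMultilinear ℂ
        (fun _ : Fin 3 => V) (fun _ : Fin 3 => V) ℂ (fun _ => x.2)) := by
    refine (ContinuousMultilinearMap.contDiff _).comp ?_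
    exact contDiff_pi.2 fun _ => contDiff_snd
  exact h1.clm_apply contDiff_fst

/-- the pull-back as a linear map -/
noncomputable def pullL (L : V →L[ℂ] V) : Cub V →L[ℂ] Cub V :=
  ContinuousMultilinearMap.compContinuousLinearMapL fun _ => L

theorem pullL_apply (L : V →L[ℂ] V) (w : Cub V) : pullL L w = pull w L := rfl

end Cub

section Pol

variable {V : Type} [NormedAddCommGroup V] [InnerProductSpace ℂ V] [FiniteDimensional ℂ V]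
variable {n : ℕ} {Q : (Fin n → ℝ) → (Fin n → ℝ) → ℝ}
variable {π₀ π : (Fin n → ℝ) ≃L[ℝ] V} {G₀ G : V ≃L[ℂ] V}

/-- homogeneous entire functions on `ℂ × Cub V` -/
structure IsHom (q : ℕ) (φ : ℂ × Cub V → ℂ) : Prop where
  cd : ContDiff ℂ ω φ
  hom : ∀ (s : ℂ) (x : ℂ × Cub V), φ (s • x) = s ^ q * φ x
  grow : ∃ K : ℝ, 0 ≤ K ∧ ∀ x, ‖φ x‖ ≤ K * ‖x‖ ^ q

/-- the terms of the series -/
noncomputable def cterm (φ : ℂ × Cub V → ℂ) (k : ℕ) (π₀ π : (Fin n → ℝ) ≃L[ℝ] V)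
    (x : ℂ × Cub V) (M : Matrix (Fin n) (Fin n) ℤ) : ℂ :=
  φ (x.1, pull x.2 (LL π₀ π M)) * ((LL π₀ π M).det)⁻¹ ^ k

/-- the series -/
noncomputable def CS (Q : (Fin n → ℝ) → (Fin n → ℝ) → ℝ) (φ : ℂ × Cub V → ℂ) (k : ℕ)
    (π₀ π : (Fin n → ℝ) ≃L[ℝ] V) (x : ℂ × Cub V) : ℂ :=
  ∑' M : spq Q, cterm φ k π₀ π x (mx M)

theorem norm_pullL_le (h₀ : IsPol Q π₀ G₀) (h : IsPol Q π G) (M : spq Q) (w : Cub V) :
    ‖pull w (LL π₀ π (mx M))‖ ≤ 8 * ‖(G₀ : V →L[ℂ] V)‖ ^ 3 *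
      ‖pull w (G.symm : V →L[ℂ] V)‖ * dl π₀ π G₀ G (mx M) ^ 3 := by
  set N := clin (NT π₀ π G₀ G (mx M)) with hN
  have hL : LL π₀ π (mx M) = ((G.symm : V →L[ℂ] V).comp N).comp (G₀ : V →L[ℂ] V) := by
    rw [hN, clin_NT]
    ext v
    simp
  have hd := one_le_dl h₀ h M
  have hN1 : ‖N‖ ≤ 2 * dl π₀ π G₀ G (mx M) := by
    refine (norm_clin_le _).trans (ContinuousLinearMap.opNorm_le_bound _ (by positivity)
      fun u => NT_le h₀ h M u)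
  rw [hL, ← pull_pull, ← pull_pull]
  refine (norm_pull_le _ _).trans ?_
  have h1 := norm_pull_le (pull w (G.symm : V →L[ℂ] V)) N
  calc ‖pull (pull w (G.symm : V →L[ℂ] V)) N‖ * ‖(G₀ : V →L[ℂ] V)‖ ^ 3
      ≤ (‖pull w (G.symm : V →L[ℂ] V)‖ * (2 * dl π₀ π G₀ G (mx M)) ^ 3) *
        ‖(G₀ : V →L[ℂ] V)‖ ^ 3 := by
        gcongr
        exact h1.trans (by gcongr)
    _ = _ := by ring

theorem cterm_le {φ : ℂ × Cub V → ℂ} {K : ℝ} (hK : 0 ≤ K) {q : ℕ}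
    (hφ : ∀ x, ‖φ x‖ ≤ K * ‖x‖ ^ q) {k : ℕ} (hk : 3 * q ≤ k) (h₀ : IsPol Q π₀ G₀)
    (h : IsPol Q π G) (M : spq Q) (x : ℂ × Cub V) :
    ‖cterm φ k π₀ π x (mx M)‖ ≤
      K * (‖x.1‖ + 8 * ‖(G₀ : V →L[ℂ] V)‖ ^ 3 * ‖pull x.2 (G.symm : V →L[ℂ] V)‖) ^ q *
      (‖(G : V →L[ℂ] V).det‖ * ‖(G₀ : V →L[ℂ] V).det‖⁻¹) ^ k *
      (dl π₀ π G₀ G (mx M))⁻¹ ^ (k - 3 * q) := by
  have hG := norm_pos_iff.2 (det_equiv_ne G)
  have hG₀ := norm_pos_iff.2 (det_equiv_ne G₀)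
  have hL := norm_pos_iff.2 (dl_ne h₀ h M)
  set δ := dl π₀ π G₀ G (mx M) with hδ
  have hδ1 : 1 ≤ δ := one_le_dl h₀ h M
  have hδ0 : 0 < δ := by linarith
  have h1 : ‖(LL π₀ π (mx M)).det‖⁻¹ = (‖(G : V →L[ℂ] V).det‖ * ‖(G₀ : V →L[ℂ] V).det‖⁻¹) *
      δ⁻¹ := by
    rw [hδ, dl_eq]
    field_simp
  have h2 : ‖((x.1, pull x.2 (LL π₀ π (mx M))) : ℂ × Cub V)‖ ≤
      (‖x.1‖ + 8 * ‖(G₀ : V →L[ℂ] V)‖ ^ 3 * ‖pull x.2 (G.symm : V →L[ℂ] V)‖) * δ ^ 3 := by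
    have h3 := norm_pullL_le h₀ h M x.2
    have h4 : 1 ≤ δ ^ 3 := one_le_pow₀ hδ1
    refine max_le ?_ ?_
    · show ‖x.1‖ ≤ _
      calc ‖x.1‖ ≤ ‖x.1‖ * δ ^ 3 := le_mul_of_one_le_right (norm_nonneg _) h4
        _ ≤ _ := by
          gcongr
          have : 0 ≤ 8 * ‖(G₀ : V →L[ℂ] V)‖ ^ 3 * ‖pull x.2 (G.symm : V →L[ℂ] V)‖ := by
            positivity
          linarith
    · show ‖pull x.2 (LL π₀ π (mx M))‖ ≤ _
      refine h3.trans ?_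
      gcongr
      have : 0 ≤ ‖x.1‖ := norm_nonneg _
      linarith
  rw [cterm, norm_mul, norm_pow, norm_inv, h1, mul_pow, ← mul_assoc]
  have h5 : ‖φ (x.1, pull x.2 (LL π₀ π (mx M)))‖ ≤
      K * (‖x.1‖ + 8 * ‖(G₀ : V →L[ℂ] V)‖ ^ 3 * ‖pull x.2 (G.symm : V →L[ℂ] V)‖) ^ q *
        δ ^ (3 * q) := by
    refine (hφ _).trans ?_
    calc K * ‖((x.1, pull x.2 (LL π₀ π (mx M))) : ℂ × Cub V)‖ ^ q ≤
          K * ((‖x.1‖ + 8 * ‖(G₀ : V →L[ℂ] V)‖ ^ 3 * ‖pull x.2 (G.symm : V →L[ℂ] V)‖) *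
            δ ^ 3) ^ q := by gcongr
      _ = _ := by rw [mul_pow, ← pow_mul]; ring
  have h6 : δ⁻¹ ^ k = δ⁻¹ ^ (3 * q) * δ⁻¹ ^ (k - 3 * q) := by
    rw [← pow_add]
    congr 1
    omega
  have h7 : δ ^ (3 * q) * δ⁻¹ ^ (3 * q) = 1 := by
    rw [← mul_pow, mul_inv_cancel₀ hδ0.ne', one_pow]
  set A := K * (‖x.1‖ + 8 * ‖(G₀ : V →L[ℂ] V)‖ ^ 3 * ‖pull x.2 (G.symm : V →L[ℂ] V)‖) ^ q
  set B := (‖(G : V →L[ℂ] V).det‖ * ‖(G₀ : V →L[ℂ] V).det‖⁻¹) ^ k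
  calc _ ≤ A * δ ^ (3 * q) * B * δ⁻¹ ^ k := by gcongr
    _ = A * B * (δ ^ (3 * q) * δ⁻¹ ^ (3 * q)) * δ⁻¹ ^ (k - 3 * q) := by rw [h6]; ring
    _ = A * B * δ⁻¹ ^ (k - 3 * q) := by rw [h7, mul_one]

theorem CS_bound (hn : 0 < n) {φ : ℂ × Cub V → ℂ} {K : ℝ} (hK : 0 ≤ K) {q : ℕ}
    (hφ : ∀ x, ‖φ x‖ ≤ K * ‖x‖ ^ q) {k : ℕ} (hk : 3 * q + 2 * (n * n + 1) ≤ k)
    (h₀ : IsPol Q π₀ G₀) (h : IsPol Q π G) (x : ℂ × Cub V) :
    Summable (fun M : spq Q => ‖cterm φ k π₀ π x (mx M)‖) ∧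
    ‖CS Q φ k π₀ π x‖ ≤
      K * (‖x.1‖ + 8 * ‖(G₀ : V →L[ℂ] V)‖ ^ 3 * ‖pull x.2 (G.symm : V →L[ℂ] V)‖) ^ q *
      (‖(G : V →L[ℂ] V).det‖ * ‖(G₀ : V →L[ℂ] V).det‖⁻¹) ^ k * CP Q π₀ G₀ := by
  have h1 := dl_sum hn (Nat.lt_succ_self (n * n)) h₀ h
  set C : ℝ := K * (‖x.1‖ + 8 * ‖(G₀ : V →L[ℂ] V)‖ ^ 3 * ‖pull x.2 (G.symm : V →L[ℂ] V)‖) ^ q *
      (‖(G : V →L[ℂ] V).det‖ * ‖(G₀ : V →L[ℂ] V).det‖⁻¹) ^ k with hC
  have hC0 : 0 ≤ C := by positivity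
  have h2 : ∀ M : spq Q, ‖cterm φ k π₀ π x (mx M)‖ ≤
      C * (dl π₀ π G₀ G (mx M))⁻¹ ^ (2 * (n * n + 1)) := fun M =>
    (cterm_le hK hφ (by omega) h₀ h M x).trans
      (mul_le_mul_of_nonneg_left (dl_pow_le h₀ h (by omega) M) hC0)
  have h3 : Summable fun M : spq Q => C * (dl π₀ π G₀ G (mx M))⁻¹ ^ (2 * (n * n + 1)) :=
    h1.1.mul_left C
  have h4 : Summable (fun M : spq Q => ‖cterm φ k π₀ π x (mx M)‖) :=
    Summable.of_nonneg_of_le (fun M => norm_nonneg _) h2 h3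
  refine ⟨h4, (norm_tsum_le_tsum_norm h4).trans ?_⟩
  calc ∑' M : spq Q, ‖cterm φ k π₀ π x (mx M)‖
      ≤ ∑' M : spq Q, C * (dl π₀ π G₀ G (mx M))⁻¹ ^ (2 * (n * n + 1)) :=
        h4.tsum_le_tsum h2 h3
    _ = C * ∑' M : spq Q, (dl π₀ π G₀ G (mx M))⁻¹ ^ (2 * (n * n + 1)) := tsum_mul_left
    _ ≤ C * CP Q π₀ G₀ := mul_le_mul_of_nonneg_left h1.2 hC0

/-- change of periods -/
theorem CS_change {π' : (Fin n → ℝ) ≃L[ℝ] V} {G' : V ≃L[ℂ] V}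
    (hG : IsPeriodChange Q π π' G') (φ : ℂ × Cub V → ℂ) (k : ℕ) (t : ℂ) (w : Cub V) :
    CS Q φ k π₀ π' (t, w) =
      ((G' : V →L[ℂ] V).det)⁻¹ ^ k * CS Q φ k π₀ π (t, pull w (G' : V →L[ℂ] V)) := by
  obtain ⟨M', hM'⟩ := IsPeriodChange.exists_mx hG
  have h1 : ∀ M : spq Q, cterm φ k π₀ π' (t, w) (mx (M' * M)) =
      ((G' : V →L[ℂ] V).det)⁻¹ ^ k *
        cterm φ k π₀ π (t, pull w (G' : V →L[ℂ] V)) (mx M) := by
    intro M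
    have h2 : TT π₀ π' (mx (M' * M)) =
        ((G' : V →L[ℂ] V).restrictScalars ℝ).comp (TT π₀ π (mx M)) := by
      ext v
      show π' (mact (mx (M' * M)) (π₀.symm v)) = G' (π (mact (mx M) (π₀.symm v)))
      rw [mx_mul, mact_mul, hM']
    have h3 : LL π₀ π' (mx (M' * M)) = (G' : V →L[ℂ] V).comp (LL π₀ π (mx M)) := by
      rw [LL, h2, clin_comp_left, LL]
    show φ (t, pull w (LL π₀ π' (mx (M' * M)))) * _ =
      _ * (φ (t, pull (pull w (G' : V →L[ℂ] V)) (LL π₀ π (mx M))) * _)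
    rw [h3, det_comp, mul_inv, mul_pow, pull_pull]
    ring
  rw [CS, ← (Equiv.mulLeft M').tsum_eq]
  show ∑' M : spq Q, cterm φ k π₀ π' (t, w) (mx (M' * M)) = _
  simp_rw [h1]
  rw [tsum_mul_left]
  rfl

/-- homogeneity -/
theorem CS_smul {φ : ℂ × Cub V → ℂ} {q : ℕ} (hφ : IsHom q φ) (k : ℕ) (s : ℂ)
    (x : ℂ × Cub V) : CS Q φ k π₀ π (s • x) = s ^ q * CS Q φ k π₀ π x := by
  unfold CS
  rw [← tsum_mul_left]
  refine tsum_congr fun M => ?_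
  unfold cterm
  have h1 : ((s • x).1, pull (s • x).2 (LL π₀ π (mx M))) =
      s • ((x.1, pull x.2 (LL π₀ π (mx M))) : ℂ × Cub V) := by
    refine Prod.ext rfl ?_
    exact pull_smul s x.2 _
  rw [h1, hφ.hom]
  ring

/-- bound of the inverse of the normalization -/
theorem symm_le (h₀ : IsPol Q π₀ G₀) (h : IsPol Q π G) :
    ‖(G.symm : V →L[ℂ] V)‖ ≤ ‖(π : (Fin n → ℝ) →L[ℝ] V)‖ *
      (‖(π₀.symm : V →L[ℝ] (Fin n → ℝ))‖ * (‖(G₀.symm : V →L[ℂ] V)‖ *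
        (2 * dl π₀ π G₀ G 1))) := by
  have hd := one_le_dl h₀ h 1
  rw [mx_one] at hd
  refine ContinuousLinearMap.opNorm_le_bound _ (by positivity) fun v => ?_
  set u : V := G₀ (π₀ (π.symm (G.symm v))) with hu
  have h1 : NT π₀ π G₀ G (mx (1 : spq Q)) u = v := by
    rw [NT_apply, hu, G₀.symm_apply_apply, π₀.symm_apply_apply, mx_one, mact_one,
      π.apply_symm_apply, G.apply_symm_apply]
  have h2 := norm_le_of_symp (isSymp_NT h₀ h 1) (NT_le h₀ h 1) u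
  rw [h1, mx_one] at h2
  have h3 : (G.symm : V →L[ℂ] V) v = π (π₀.symm (G₀.symm u)) := by
    rw [hu, G₀.symm_apply_apply, π₀.symm_apply_apply, π.apply_symm_apply]
    rfl
  rw [h3]
  calc ‖π (π₀.symm (G₀.symm u))‖ ≤ ‖(π : (Fin n → ℝ) →L[ℝ] V)‖ * ‖π₀.symm (G₀.symm u)‖ :=
        (π : (Fin n → ℝ) →L[ℝ] V).le_opNorm _
    _ ≤ ‖(π : (Fin n → ℝ) →L[ℝ] V)‖ * (‖(π₀.symm : V →L[ℝ] (Fin n → ℝ))‖ * ‖G₀.symm u‖) := by
        gcongr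
        exact (π₀.symm : V →L[ℝ] (Fin n → ℝ)).le_opNorm _
    _ ≤ ‖(π : (Fin n → ℝ) →L[ℝ] V)‖ * (‖(π₀.symm : V →L[ℝ] (Fin n → ℝ))‖ *
        (‖(G₀.symm : V →L[ℂ] V)‖ * ‖u‖)) := by
        gcongr
        exact (G₀.symm : V →L[ℂ] V).le_opNorm _
    _ ≤ ‖(π : (Fin n → ℝ) →L[ℝ] V)‖ * (‖(π₀.symm : V →L[ℝ] (Fin n → ℝ))‖ *
        (‖(G₀.symm : V →L[ℂ] V)‖ * (2 * dl π₀ π G₀ G 1 * ‖v‖))) := by
        gcongr
    _ = _ := by ring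

/-- domination of the terms of the series, locally uniform in the periods -/
theorem cterm_dom (hn : 0 < n) {φ : ℂ × Cub V → ℂ} {K : ℝ} (hK : 0 ≤ K) {q : ℕ}
    (hφ : ∀ x, ‖φ x‖ ≤ K * ‖x‖ ^ q) {k : ℕ} (hk : 3 * q + (n * n + 1) ≤ k)
    (h₀ : IsPol Q π₀ G₀) {Z : Type*} [TopologicalSpace Z]
    {π : Z → ((Fin n → ℝ) ≃L[ℝ] V)} {w : Z → ℂ × Cub V} {z₀ : Z}
    (hπ : ContinuousAt (fun z => (π z : (Fin n → ℝ) →L[ℝ] V)) z₀) (hw : ContinuousAt w z₀) :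
    ∃ u : spq Q → ℝ, Summable u ∧ ∀ᶠ z in 𝓝 z₀, ∀ G : V ≃L[ℂ] V, IsPol Q (π z) G →
      ∀ M : spq Q, ‖cterm φ k π₀ (π z) (w z) (mx M)‖ ≤ u M := by
  obtain ⟨C, hC0, hC⟩ := loc_bound h₀ hπ
  set g : ℝ := ‖(G₀ : V →L[ℂ] V).det‖⁻¹ with hg
  have hC00 : 0 ≤ C0 π₀ G₀ := by unfold C0; positivity
  set Cp : ℝ := ‖(π z₀ : (Fin n → ℝ) →L[ℝ] V)‖ + 1 with hCp
  set Cs : ℝ := Cp * (‖(π₀.symm : V →L[ℝ] (Fin n → ℝ))‖ * (‖(G₀.symm : V →L[ℂ] V)‖ *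
        (2 * C))) with hCs
  set Cw : ℝ := ‖w z₀‖ + 1 with hCw
  set B : ℝ := Cw + 8 * ‖(G₀ : V →L[ℂ] V)‖ ^ 3 * (Cw * Cs ^ 3) with hB
  have hCp0 : 0 ≤ Cp := by positivity
  have hCs0 : 0 ≤ Cs := by positivity
  have hCw0 : 0 ≤ Cw := by positivity
  have hB0 : 0 ≤ B := by positivity
  set A : ℝ := K * B ^ q * (C * g) ^ k * (C0 π₀ G₀ * C) ^ (k - 3 * q) with hA
  have hA0 : 0 ≤ A := by positivity
  refine ⟨fun M => A * ‖mact (mx M)‖⁻¹ ^ (k - 3 * q), (summable_mx hn (by omega)).mul_left A, ?_⟩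
  have hwev : ∀ᶠ z in 𝓝 z₀, ‖w z‖ < Cw := hw.norm.eventually (gt_mem_nhds (by linarith))
  have hpev : ∀ᶠ z in 𝓝 z₀, ‖(π z : (Fin n → ℝ) →L[ℝ] V)‖ < Cp :=
    hπ.norm.eventually (gt_mem_nhds (by linarith))
  filter_upwards [hC, hwev, hpev] with z hz hwz hpz G hG M
  obtain ⟨hG1, hG2, hG3⟩ := hz G hG
  have h1 := cterm_le hK hφ (k := k) (by omega) h₀ hG M (w z)
  have h2 := mact_le h₀ hG 1 M
  rw [inv_one, one_mul, mx_one] at h2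
  have h3 := one_le_dl h₀ hG M
  have h4 := mact_mx_pos hn M
  have h5 : (dl π₀ (π z) G₀ G (mx M))⁻¹ ≤ (C0 π₀ G₀ * C) * ‖mact (mx M)‖⁻¹ := by
    rw [← div_eq_mul_inv, inv_eq_one_div, div_le_div_iff₀ (by linarith) h4, one_mul]
    refine h2.trans ?_
    rw [mul_assoc]
    gcongr
  have h6 : ‖(G.symm : V →L[ℂ] V)‖ ≤ Cs := by
    refine (symm_le h₀ hG).trans ?_
    have hd1 := one_le_dl h₀ hG 1
    rw [mx_one] at hd1
    have hd0 : 0 ≤ dl π₀ (π z) G₀ G 1 := by linarith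
    rw [hCs]
    refine mul_le_mul hpz.le ?_ (by positivity) hCp0
    gcongr
  have h7 : 0 ≤ (dl π₀ (π z) G₀ G (mx M))⁻¹ := inv_nonneg.2 (norm_nonneg _)
  have h8 : ‖(w z).1‖ + 8 * ‖(G₀ : V →L[ℂ] V)‖ ^ 3 * ‖pull (w z).2 (G.symm : V →L[ℂ] V)‖ ≤
      B := by
    have h9 : ‖(w z).1‖ ≤ Cw := (norm_fst_le (w z)).trans hwz.le
    have h10 : ‖pull (w z).2 (G.symm : V →L[ℂ] V)‖ ≤ Cw * Cs ^ 3 := by
      refine (norm_pull_le _ _).trans ?_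
      gcongr
      exact (norm_snd_le (w z)).trans hwz.le
    rw [hB]
    gcongr
  calc _ ≤ _ := h1
    _ ≤ K * B ^ q * (C * g) ^ k * ((C0 π₀ G₀ * C) * ‖mact (mx M)‖⁻¹) ^ (k - 3 * q) := by
        gcongr
    _ = A * ‖mact (mx M)‖⁻¹ ^ (k - 3 * q) := by
        rw [hA, mul_pow _ (‖mact (mx M)‖⁻¹)]
        ring

variable {E : Type*} [NormedAddCommGroup E] [NormedSpace ℂ E] [FiniteDimensional ℂ E]

theorem cterm_diff {φ : ℂ × Cub V → ℂ} (hφ : ContDiff ℂ ω φ) (k : ℕ) {U : Set E}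
    (hU : IsOpen U) {π : E → ((Fin n → ℝ) ≃L[ℝ] V)}
    (hπ : ∀ x, DifferentiableOn ℂ (fun z => π z x) U)
    {w : E → ℂ × Cub V} (hw : DifferentiableOn ℂ w U) {M : Matrix (Fin n) (Fin n) ℤ}
    (hdet : ∀ z ∈ U, (LL π₀ (π z) M).det ≠ 0) :
    DifferentiableOn ℂ (fun z => cterm φ k π₀ (π z) (w z) M) U := by
  intro z hz
  have hn : (ω : WithTop ℕ∞) ≠ 0 := by simp
  have hL : ContDiffAt ℂ ω (fun z => LL π₀ (π z) M) z :=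
    (LL_diff hU hπ M).contDiffAt (hU.mem_nhds hz)
  have hd := hdet z hz
  have hwz := hw.differentiableAt (hU.mem_nhds hz)
  have h1 : DifferentiableAt ℂ (fun z => pull (w z).2 (LL π₀ (π z) M)) z := by
    have h2 : DifferentiableAt ℂ (fun z => ((w z).2, LL π₀ (π z) M)) z :=
      hwz.snd.prodMk (hL.differentiableAt hn)
    exact ((contDiff_pull.differentiable hn) _).comp z h2
  have h3 : DifferentiableAt ℂ (fun z => φ ((w z).1, pull (w z).2 (LL π₀ (π z) M))) z :=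
    ((hφ.differentiable hn) _).comp z (hwz.fst.prodMk h1)
  have h4 : DifferentiableAt ℂ (fun z => (LL π₀ (π z) M).det) z :=
    (contDiff_det'.contDiffAt.comp z hL).differentiableAt (by simp)
  exact (h3.mul ((h4.inv hd).pow k)).differentiableWithinAt

/-- The series is holomorphic. -/
theorem CS_analytic (hn : 0 < n) {φ : ℂ × Cub V → ℂ} {q : ℕ} (hφ : IsHom q φ) {k : ℕ}
    (hk : 3 * q + (n * n + 1) ≤ k) (h₀ : IsPol Q π₀ G₀)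
    {U : Set E} (hU : IsOpen U) {π : E → ((Fin n → ℝ) ≃L[ℝ] V)}
    (hπ : ∀ x, DifferentiableOn ℂ (fun z => π z x) U)
    (hpol : ∀ z ∈ U, ∃ G, IsPol Q (π z) G)
    {w : E → ℂ × Cub V} (hw : DifferentiableOn ℂ w U) {z₀ : E} (hz₀ : z₀ ∈ U) :
    AnalyticAt ℂ (fun z => CS Q φ k π₀ (π z) (w z)) z₀ := by
  obtain ⟨K, hK, hφK⟩ := hφ.grow
  obtain ⟨u, hu, hdom⟩ := cterm_dom hn hK hφK hk h₀ (contAt_of_pointwise hU hπ hz₀)
    (hw.continuousOn.continuousAt (hU.mem_nhds hz₀))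
  obtain ⟨U', hU'1, hU'2, hU'3⟩ := _root_.eventually_nhds_iff.1 (hdom.and (hU.mem_nhds hz₀))
  have hsub : U' ⊆ U := fun z hz => (hU'1 z hz).2
  refine analyticAt_tsum (hU'2.mem_nhds hU'3) (fun M => ?_) hu (fun M z hz => ?_)
  · refine cterm_diff hφ.cd k hU'2 (fun x => (hπ x).mono hsub) (hw.mono hsub) fun z hz => ?_
    obtain ⟨G, hG⟩ := hpol z (hsub hz)
    exact dl_ne h₀ hG M
  · obtain ⟨G, hG⟩ := hpol z (hsub hz)
    exact (hU'1 z hz).1 G hG M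

end Pol

end Vale.Agent.P281.H511.D
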